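import Crest.Agent.X262.Mv99.Mon

/-!
# Row 262, G4 / MV (helper99), part 5: `MvStmt` from the vanishing of `H²` of the Atiyah algebra
-/

set_option autoImplicit false

open PowerSeries
open scoped KaehlerDifferential

noncomputable section

namespace Crest.Agent.X262.Mv99

open Crest.Agent.X277 Crest.Agent.X277.Lef Crest.Agent.X277.AN.G1 Crest.Agent.X277.BD
open Crest.Agent.X277.BD.Br (On oP kP At)
open Crest.Agent.X262.Top (Hyp)

/-- `H² = 0` for the first order operators on a line bundle which is obstructed in some direction -/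
def H2Stmt : Prop := ∀ (F : Type) [Field F] [Algebra ℂ F] (Γ : MvPolynomial (Fin 4) ℂ)
  (S : Hyp 3 Γ F) (_ : Module.Basis (Fin 2) F Ω[F⁄ℂ]), Qt Γ → ∀ M ∈ On S.P,
  (∃ η₀, Coc S η₀ ∧ ¬ Lifts S η₀ M) → ∀ (D : Derivation ℂ F F) (r : F),
    (∀ x, (∀ a, x ∈ U S a) → Op (oR x) (nS M x) D r) →
    ∃ (D₀₁ D₁₂ D₀₂ : Derivation ℂ F F) (r₀₁ r₁₂ r₀₂ : F),
      (∀ x, x ∈ U S 0 → x ∈ U S 1 → Op (oR x) (nS M x) D₀₁ r₀₁) ∧
      (∀ x, x ∈ U S 1 → x ∈ U S 2 → Op (oR x) (nS M x) D₁₂ r₁₂) ∧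
      (∀ x, x ∈ U S 0 → x ∈ U S 2 → Op (oR x) (nS M x) D₀₂ r₀₂) ∧
      D = D₀₂ - D₀₁ - D₁₂ ∧ r = r₀₂ - r₀₁ - r₁₂

namespace Mv

variable {k L : Type*} [CommRing k] [CommRing L] [Algebra k L] {m m' : Mv k L} {A : Subring L}
  {N : AddSubgroup L}

theorem Pres.map_ring (h : m'.Pres A N) (m : Mv k L) :
    (serR A).map (m.comp m').ψ = (serR A).map m.ψ := by
  ext f
  simp only [Subring.mem_map, comp_ψ]
  constructor
  · rintro ⟨g, hg, rfl⟩
    exact ⟨_, h.ψ_mem hg, rfl⟩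
  · rintro ⟨g, hg, rfl⟩
    obtain ⟨g', h1, rfl⟩ := h.ψ_surj hg
    exact ⟨g', h1, rfl⟩

theorem Pres.map_sec (h : m'.Pres A N) (m : Mv k L) :
    (ser N).map (m.comp m').act = (ser N).map m.act := by
  ext f
  simp only [AddSubgroup.mem_map, comp_act]
  constructor
  · rintro ⟨g, hg, rfl⟩
    exact ⟨_, h.act_mem hg, rfl⟩
  · rintro ⟨g, hg, rfl⟩
    obtain ⟨g', h1, rfl⟩ := h.act_surj hg
    exact ⟨g', h1, rfl⟩

theorem one_comp (m : Mv k L) : one.comp m = m := ext' (fun _ => rfl) (by simp)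

theorem comp_one (m : Mv k L) : m.comp one = m := ext' (fun _ => rfl) (by simp)

theorem comp_assoc (a b c : Mv k L) : (a.comp b).comp c = a.comp (b.comp c) :=
  ext' (fun _ => rfl) (by simp [mul_assoc])

end Mv

theorem rat_smul {F : Type} [Field F] [Algebra ℂ F] [Algebra ℚ F] (c : ℚ) (a : F) :
    c • a = (c : ℂ) • a := by
  rw [Algebra.smul_def, Algebra.smul_def, eq_ratCast, map_ratCast]

theorem mv_of_h2 (H : H2Stmt) : MvStmt := by
  intro F _ _ Γ S b hΓ M hM h0 η ⟨r, hr⟩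
  have : CharZero F := charZero_of_injective_algebraMap (algebraMap ℂ F).injective
  obtain ⟨m₁, m₂, p1, p2, p3, d1, d2⟩ := cocycle (k := ℂ) (fun x : Pts S.P => oR x)
    (fun x => nS M x)
    (fun x c a ha => by rw [rat_smul]; exact (lp x).O.smul_mem ha _)
    (fun x c a ha => by rw [rat_smul]; exact smul_mem_nS _ ha)
    (U S 0 ∩ U S 1) (U S 1 ∩ U S 2) (U S 0 ∩ U S 2) {x | ∀ a, x ∈ U S a}
    (fun x hx => ⟨hx 0, hx 1⟩) (fun x hx => ⟨hx 1, hx 2⟩) (fun x hx => ⟨hx 0, hx 2⟩)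
    (fun D r h => by
      obtain ⟨a1, a2, a3, b1, b2, b3, c1, c2, c3, e⟩ := H F Γ S b hΓ M hM h0 D r h
      exact ⟨a1, a2, a3, b1, b2, b3, fun x hx => c1 x hx.1 hx.2, fun x hx => c2 x hx.1 hx.2,
        fun x hx => c3 x hx.1 hx.2, e⟩)
    (κ₀₁ := η 0 - η 1) (κ₁₂ := η 1 - η 2) (r₀₁ := r 0 - r 1) (r₁₂ := r 1 - r 2)
    (fun x hx => hr 0 1 x hx.1 hx.2) (fun x hx => hr 1 2 x hx.1 hx.2)
    (fun x hx => by
      rw [show η 1 - η 2 + (η 0 - η 1) = η 0 - η 2 by abel,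
        show r 1 - r 2 + (r 0 - r 1) = r 0 - r 2 by ring]
      exact hr 0 2 x hx.1 hx.2)
  have r01 := fun x h0 h1 => (p1 x ⟨h0, h1⟩).map_ring m₂
  have r12 := fun x h0 h1 => (p2 x ⟨h0, h1⟩).map_ring Mv.one
  have r02 := fun x h0 h1 => (p3 x ⟨h0, h1⟩).map_ring Mv.one
  have s01 := fun x h0 h1 => (p1 x ⟨h0, h1⟩).map_sec m₂
  have s12 := fun x h0 h1 => (p2 x ⟨h0, h1⟩).map_sec Mv.one
  have s02 := fun x h0 h1 => (p3 x ⟨h0, h1⟩).map_sec Mv.one
  simp only [Mv.one_comp] at r12 r02 s12 s02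
  refine ⟨⟨![m₂.comp m₁, m₂, Mv.one], fun a b x ha hb => ?_, fun a b x ha hb => ?_,
    fun a => η a - η 2, fun a => r a - r 2, fun a => ?_⟩, fun _ => rfl⟩
  · fin_cases a <;> fin_cases b
    exacts [rfl, r01 x ha hb, r02 x ha hb, (r01 x hb ha).symm, rfl, r12 x ha hb,
      (r02 x hb ha).symm, (r12 x hb ha).symm, rfl]
  · fin_cases a <;> fin_cases b
    exacts [rfl, s01 x ha hb, s02 x ha hb, (s01 x hb ha).symm, rfl, s12 x ha hb,
      (s02 x hb ha).symm, (s12 x hb ha).symm, rfl]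
  · fin_cases a
    · have := d2.comp d1
      rw [Mv.one_comp, show η 1 - η 2 + (η 0 - η 1) = η 0 - η 2 by abel,
        show r 1 - r 2 + (r 0 - r 1) = r 0 - r 2 by ring] at this
      exact this
    · exact d2
    · have := Mv.df_zero.2 (Mv.Cg.refl (1 + 1) (Mv.one : Mv ℂ F))
      simpa using this

end Crest.Agent.X262.Mv99
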