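import Crest.Agent.X262.Mv99.Defs

/-!
# Row 262, G4 / MV (helper99), part 4: the cohomology of `O(n)` on the quartic, by monomials

* `mon y m`, `Wd y n I`, `Sp y n I` : Laurent monomials and their spans;
* `Gm S n I`   : sections of `O(n)` over the intersection of the charts in `I`;
* `gm_eq_sp`   : they are spanned by the monomials, `indep` : these are independent;
* `h2_pos`, `h2_zero`, `h1`, `h0` : the cohomology of `O(n)`.
-/

set_option autoImplicit false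
set_option linter.unusedSectionVars false

open MvPolynomial

noncomputable section

namespace Crest.Agent.X262.Mv99

open Crest.Agent.X277 Crest.Agent.X277.Lef Crest.Agent.X277.AN.G1 Crest.Agent.X277.BD
open Crest.Agent.X277.BD.Br (On oP kP At at_y)
open Crest.Agent.X277.Cns (Ov)
open Crest.Agent.X262.Top (Hyp)

variable {F : Type} [Field F] [Algebra ℂ F]

/-- Nullstellensatz: clearing of denominators on a principal open subset of a chart -/
theorem exists_pow_mul_mem {P : PModel ℂ F} {i : Fin (P.N + 1)} {V : Type*} [AddCommGroup V]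
    [Module F V] (N : AddSubgroup V) (hN : ∀ c ∈ P.A i, ∀ g ∈ N, c • g ∈ N) {f : V} {c : F}
    (hc : c ∈ P.A i)
    (h : ∀ x ∈ pat P i, ev c x ≠ 0 → ∃ e ∈ P.A i, ev e x ≠ 0 ∧ e • f ∈ N) :
    ∃ k : ℕ, c ^ k • f ∈ N := by
  let I : Ideal (P.A i) :=
    { carrier := {e | (e : F) • f ∈ N}
      add_mem' := fun {a b} ha hb => by
        show ((a + b : P.A i) : F) • f ∈ N
        push_cast
        rw [add_smul]
        exact add_mem ha hb
      zero_mem' := by simp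
      smul_mem' := fun e a ha => by
        show ((e * a : P.A i) : F) • f ∈ N
        push_cast
        rw [mul_smul]
        exact hN _ e.2 _ ha }
  have h1 : (⟨c, hc⟩ : P.A i) ∈ I.radical := by
    rw [Ideal.radical_eq_sInf, Ideal.mem_sInf]
    rintro J ⟨h1, h2⟩
    by_contra h3
    obtain ⟨φ, h4, h5⟩ := KT.exists_point_of_isPrime (𝕜 := ℂ) J h2 _ h3
    obtain ⟨x, hx, h6⟩ := exists_pt i φ
    obtain ⟨e, he, h7, h8⟩ := h x hx (by rw [← h6] at h5; exact h5)
    exact h7 ((h6 ⟨e, he⟩).trans (h4 _ (h1 h8)))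
  obtain ⟨k, hk⟩ := h1
  exact ⟨k, hk⟩

theorem span_inf_span {ι V : Type*} [AddCommGroup V] [Module ℂ V] {v : ι → V} {T s t : Set ι}
    (h : LinearIndepOn ℂ v T) (hs : s ⊆ T) (ht : t ⊆ T) :
    Submodule.span ℂ (v '' s) ⊓ Submodule.span ℂ (v '' t) ≤ Submodule.span ℂ (v '' (s ∩ t)) := by
  rintro x ⟨h1, h2⟩
  obtain ⟨a, ha, rfl⟩ := (Finsupp.mem_span_image_iff_linearCombination ℂ).1 h1
  obtain ⟨b, hb, e⟩ := (Finsupp.mem_span_image_iff_linearCombination ℂ).1 h2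
  obtain rfl := linearIndepOn_iffₛ.1 h b (Finsupp.supported_mono ht hb) a
    (Finsupp.supported_mono hs ha) e
  exact (Finsupp.mem_span_image_iff_linearCombination ℂ).2
    ⟨b, fun i hi => ⟨ha hi, hb hi⟩, rfl⟩

section Mon

variable (y : Fin 4 → F)

/-- Laurent monomials -/
def mon (m : Fin 4 → ℤ) : F := ∏ i, y i ^ m i

/-- exponents of degree `n` with poles along the coordinates in `I` -/
def Ex (n : ℤ) (I : Finset (Fin 3)) : Set (Fin 4 → ℤ) :=
  {m | ∑ i, m i = n ∧ 0 ≤ m 3 ∧ ∀ a : Fin 3, a ∉ I → 0 ≤ m a.castSucc}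

/-- reduced exponents -/
def Ex3 (n : ℤ) (I : Finset (Fin 3)) : Set (Fin 4 → ℤ) := {m | m ∈ Ex n I ∧ m 3 ≤ 3}

/-- the span of all monomials -/
def Wd (n : ℤ) (I : Finset (Fin 3)) : Submodule ℂ F := Submodule.span ℂ (mon y '' Ex n I)

/-- the span of the reduced monomials -/
def Sp (n : ℤ) (I : Finset (Fin 3)) : Submodule ℂ F := Submodule.span ℂ (mon y '' Ex3 n I)

variable {y}

theorem mon_add (hy : ∀ i, y i ≠ 0) (m m' : Fin 4 → ℤ) : mon y (m + m') = mon y m * mon y m' := by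
  simp only [mon, Pi.add_apply, zpow_add₀ (hy _), Finset.prod_mul_distrib]

theorem mon_single (i : Fin 4) (k : ℤ) : mon y (Pi.single i k) = y i ^ k := by
  rw [mon, Finset.prod_eq_single i] <;> simp +contextual

theorem mon_nat (d : Fin 4 →₀ ℕ) : mon y (fun i => (d i : ℤ)) = d.prod fun i k => y i ^ k := by
  rw [Finsupp.prod_fintype _ _ (by simp)]
  simp [mon]

theorem Ex.add {n n' : ℤ} {I : Finset (Fin 3)} {m m' : Fin 4 → ℤ} (h : m ∈ Ex n I)
    (h' : m' ∈ Ex n' I) : m + m' ∈ Ex (n + n') I :=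
  ⟨by simp only [Pi.add_apply, Finset.sum_add_distrib, h.1, h'.1], add_nonneg h.2.1 h'.2.1,
    fun a ha => add_nonneg (h.2.2 a ha) (h'.2.2 a ha)⟩

theorem Ex.mono {n : ℤ} {I J : Finset (Fin 3)} (h : I ⊆ J) : Ex n I ⊆ Ex n J :=
  fun _ hm => ⟨hm.1, hm.2.1, fun a ha => hm.2.2 a fun h1 => ha (h h1)⟩

theorem Ex3.mono {n : ℤ} {I J : Finset (Fin 3)} (h : I ⊆ J) : Ex3 n I ⊆ Ex3 n J :=
  fun _ hm => ⟨Ex.mono h hm.1, hm.2⟩

theorem Wd.mono {n : ℤ} {I J : Finset (Fin 3)} (h : I ⊆ J) : Wd y n I ≤ Wd y n J :=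
  Submodule.span_mono (Set.image_mono (Ex.mono h))

theorem Sp.mono {n : ℤ} {I J : Finset (Fin 3)} (h : I ⊆ J) : Sp y n I ≤ Sp y n J :=
  Submodule.span_mono (Set.image_mono (Ex3.mono h))

theorem mon_mem_Wd {n : ℤ} {I : Finset (Fin 3)} {m : Fin 4 → ℤ} (h : m ∈ Ex n I) :
    mon y m ∈ Wd y n I := Submodule.subset_span ⟨m, h, rfl⟩

theorem mon_mem_Sp {n : ℤ} {I : Finset (Fin 3)} {m : Fin 4 → ℤ} (h : m ∈ Ex3 n I) :
    mon y m ∈ Sp y n I := Submodule.subset_span ⟨m, h, rfl⟩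

theorem Wd.mul (hy : ∀ i, y i ≠ 0) {n n' : ℤ} {I : Finset (Fin 3)} {u v : F} (hu : u ∈ Wd y n I)
    (hv : v ∈ Wd y n' I) : u * v ∈ Wd y (n + n') I := by
  have := Submodule.mul_mem_mul hu hv
  unfold Wd at this
  rw [Submodule.span_mul_span] at this
  refine Submodule.span_le.2 ?_ this
  rintro _ ⟨_, ⟨m, hm, rfl⟩, _, ⟨m', hm', rfl⟩, rfl⟩
  have h1 := mon_mem_Wd (y := y) (Ex.add hm hm')
  rwa [mon_add hy] at h1

theorem one_mem_Wd (I : Finset (Fin 3)) : (1 : F) ∈ Wd y 0 I := by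
  have := mon_mem_Wd (y := y) (n := 0) (I := I) (m := 0) ⟨by simp, le_rfl, fun _ _ => le_rfl⟩
  simpa [mon] using this

theorem y_mem_Wd (I : Finset (Fin 3)) (i : Fin 4) : y i ∈ Wd y 1 I := by
  have h : ∀ j, (0 : ℤ) ≤ (Pi.single i 1 : Fin 4 → ℤ) j := fun j => by
    rw [Pi.single_apply]
    split_ifs <;> simp
  have := mon_mem_Wd (y := y) (n := 1) (I := I) (m := Pi.single i 1)
    ⟨by simp, h _, fun _ _ => h _⟩
  rwa [mon_single, zpow_one] at this

theorem zpow_mem_Wd {I : Finset (Fin 3)} {a : Fin 3} (ha : a ∈ I) (k : ℤ) :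
    y a.castSucc ^ k ∈ Wd y k I := by
  have := mon_mem_Wd (y := y) (n := k) (I := I) (m := Pi.single a.castSucc k)
    ⟨by simp, by
      rw [Pi.single_eq_of_ne]
      exact (Fin.castSucc_lt_last a).ne', fun b hb => by
      rw [Pi.single_eq_of_ne]
      intro h
      exact hb (Fin.castSucc_injective _ h ▸ ha)⟩
  rwa [mon_single] at this

theorem Wd.pow (hy : ∀ i, y i ≠ 0) {I : Finset (Fin 3)} {u : F} (hu : u ∈ Wd y 0 I) (k : ℕ) :
    u ^ k ∈ Wd y 0 I := by
  induction k with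
  | zero => simpa using one_mem_Wd I
  | succ k ih => simpa [pow_succ] using Wd.mul hy ih hu

theorem aeval_mem_Wd {k : ℕ} {q : MvPolynomial (Fin 4) ℂ} (hq : q.IsHomogeneous k)
    (I : Finset (Fin 3)) : aeval y q ∈ Wd y k I := by
  rw [q.as_sum, map_sum]
  refine Submodule.sum_mem _ fun d hd => ?_
  rw [aeval_monomial, ← Algebra.smul_def, ← mon_nat]
  refine Submodule.smul_mem _ _ (mon_mem_Wd ⟨?_, by simp, fun _ _ => by simp⟩)
  have := hq (mem_support_iff.1 hd)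
  rw [← this, Finsupp.weight_apply, Finsupp.sum_fintype _ _ (by simp)]
  simp

theorem deg_four {k : ℕ} {q : MvPolynomial (Fin 4) ℂ} (hq : q.IsHomogeneous k) {d : Fin 4 →₀ ℕ}
    (hd : d ∈ q.support) : d 0 + d 1 + d 2 + d 3 = k := by
  have := hq (mem_support_iff.1 hd)
  rw [Finsupp.weight_apply, Finsupp.sum_fintype _ _ (by simp)] at this
  simpa [Fin.sum_univ_four] using this

theorem aeval_div {σ : Type*} {k : ℕ} {q : MvPolynomial σ ℂ} (hq : q.IsHomogeneous k) (z : σ → F)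
    (c : F) : aeval (fun j => z j / c) q = aeval z q / c ^ k := by
  rw [aeval_def, aeval_def, eval₂_eq, eval₂_eq, Finset.sum_div]
  refine Finset.sum_congr rfl fun m hm => ?_
  simp only [div_pow, Finset.prod_div_distrib, Finset.prod_pow_eq_pow_sum]
  rw [← hq.degree_eq_sum_deg_support hm, mul_div_assoc]

variable {Γ : MvPolynomial (Fin 4) ℂ}

/-- reduction modulo the quartic -/
theorem wd_eq_sp (hy : ∀ i, y i ≠ 0) (hΓ : Qt Γ) (h0 : aeval y Γ = 0) (n : ℤ)
    (I : Finset (Fin 3)) : Wd y n I = Sp y n I := by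
  refine le_antisymm (Submodule.span_le.2 ?_)
    (Submodule.span_mono (Set.image_mono fun _ h => h.1))
  have key : ∀ k : ℕ, ∀ m ∈ Ex n I, m 3 ≤ 3 + k → mon y m ∈ Sp y n I := by
    intro k
    induction k with
    | zero => exact fun m hm h => mon_mem_Sp ⟨hm, by simpa using h⟩
    | succ k ih =>
      intro m hm h
      by_cases h3 : m 3 ≤ 3
      · exact mon_mem_Sp ⟨hm, h3⟩
      set m' : Fin 4 → ℤ := m - Pi.single 3 4 with hm'
      have hm'E : m' ∈ Ex (n - 4) I := by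
        refine ⟨by simp [hm', hm.1], by simp only [hm', Pi.sub_apply, Pi.single_eq_same]; omega,
          fun a ha => ?_⟩
        rw [hm', Pi.sub_apply, Pi.single_eq_of_ne (i := (3 : Fin 4)) (Fin.castSucc_lt_last a).ne,
          sub_zero]
        exact hm.2.2 a ha
      have e1 : ∑ d ∈ Γ.support, coeff d Γ • mon y (m' + fun i => (d i : ℤ)) = 0 := by
        have : mon y m' * aeval y Γ = 0 := by rw [h0, mul_zero]
        rw [← this]
        conv_rhs => rw [Γ.as_sum, map_sum, Finset.mul_sum]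
        refine Finset.sum_congr rfl fun d _ => ?_
        rw [aeval_monomial, mon_add hy, mon_nat, Algebra.smul_def]
        ring
      have hs : Finsupp.single 3 4 ∈ Γ.support := mem_support_iff.2 hΓ.2.1
      rw [← Finset.add_sum_erase _ _ hs] at e1
      have e2 : (m' + fun i => ((Finsupp.single (3 : Fin 4) 4 : Fin 4 →₀ ℕ) i : ℤ)) = m := by
        funext i
        fin_cases i <;> simp [hm']
      rw [e2] at e1
      refine (Submodule.smul_mem_iff _ hΓ.2.1).1 ?_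
      rw [eq_neg_of_add_eq_zero_left e1]
      refine Submodule.neg_mem _ (Submodule.sum_mem _ fun d hd => Submodule.smul_mem _ _ ?_)
      obtain ⟨hd1, hd2⟩ := Finset.mem_erase.1 hd
      have hdeg : d 0 + d 1 + d 2 + d 3 = 4 := deg_four hΓ.1 hd2
      have hd3 : d 3 ≤ 3 := by
        by_contra h4
        refine hd1 (Finsupp.ext fun i => ?_)
        fin_cases i <;> simp <;> omega
      refine ih _ ?_ ?_
      · have := Ex.add hm'E (n' := 4) (m' := fun i => (d i : ℤ))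
          ⟨by rw [Fin.sum_univ_four]; exact_mod_cast hdeg, by simp, fun _ _ => by simp⟩
        simpa using this
      · simp only [hm', Pi.add_apply, Pi.sub_apply, Pi.single_eq_same]
        push_cast at h
        omega
  rintro _ ⟨m, hm, rfl⟩
  exact key (m 3).toNat m hm (by omega)

/-- the reduced monomials of a fixed degree are independent -/
theorem indep (hy : ∀ i, y i ≠ 0) (hΓ : Qt Γ)
    (hk : ∀ (k : ℕ) (q : MvPolynomial (Fin 4) ℂ), q.IsHomogeneous k → aeval y q = 0 → Γ ∣ q)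
    (n : ℤ) : LinearIndepOn ℂ (mon y) (Ex3 n Finset.univ) := by
  classical
  rw [linearIndepOn_iff']
  intro t g ht hsum
  obtain ⟨N, hN⟩ : ∃ N : ℕ, ∀ m ∈ t, ∀ i, -(N : ℤ) ≤ m i := by
    refine ⟨t.sup fun m => Finset.univ.sup fun i => (m i).natAbs, fun m hm i => ?_⟩
    have h1 : (m i).natAbs ≤ t.sup fun m => Finset.univ.sup fun i => (m i).natAbs :=
      (Finset.le_sup (f := fun i => (m i).natAbs) (Finset.mem_univ i)).trans
        (Finset.le_sup (f := fun m : Fin 4 → ℤ => Finset.univ.sup fun i => (m i).natAbs) hm)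
    omega
  let w : Fin 4 → ℤ := ![N, N, N, 0]
  let e : (Fin 4 → ℤ) → (Fin 4 →₀ ℕ) := fun m =>
    Finsupp.equivFunOnFinite.symm fun i => (m i + w i).toNat
  have he : ∀ m ∈ t, (fun i => (e m i : ℤ)) = m + w := by
    intro m hm
    funext i
    have h1 := hN m hm i
    have h2 := (ht hm).1.2.1
    simp only [e, Finsupp.equivFunOnFinite_symm_apply_apply, Pi.add_apply]
    fin_cases i <;> simp [w] at h1 ⊢ <;> omega
  have hinj : ∀ m ∈ t, ∀ m' ∈ t, e m = e m' → m = m' := by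
    intro m hm m' hm' h
    have := he m hm
    rw [h, he m' hm'] at this
    exact (add_right_cancel this).symm
  let q : MvPolynomial (Fin 4) ℂ := ∑ m ∈ t, monomial (e m) (g m)
  have hq : q.IsHomogeneous (n + 3 * N).toNat := by
    refine IsHomogeneous.sum _ _ _ fun m hm => isHomogeneous_monomial _ ?_
    have h1 : ((e m).degree : ℤ) = n + 3 * N := by
      rw [Finsupp.degree_eq_sum, Nat.cast_sum, show ∑ i, (e m i : ℤ) = ∑ i, (m + w) i by
        rw [← he m hm]]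
      simp only [Pi.add_apply, Finset.sum_add_distrib, (ht hm).1.1]
      simp [w, Fin.sum_univ_four]
      ring
    omega
  have h0 : aeval y q = 0 := by
    have : aeval y q = (∑ m ∈ t, g m • mon y m) * mon y w := by
      rw [map_sum, Finset.sum_mul]
      refine Finset.sum_congr rfl fun m hm => ?_
      rw [aeval_monomial, ← mon_nat, he m hm, mon_add hy, Algebra.smul_def, mul_assoc]
    rw [this, hsum, zero_mul]
  obtain ⟨r, hr⟩ := hk _ q hq h0
  have hq0 : q = 0 := by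
    by_contra hq0
    have hΓ0 : Γ ≠ 0 := by rintro rfl; exact hq0 (by rw [hr, zero_mul])
    have hr0 : r ≠ 0 := by rintro rfl; exact hq0 (by rw [hr, mul_zero])
    have h1 : 4 ≤ degreeOf 3 Γ := by
      simpa using monomial_le_degreeOf 3 (mem_support_iff.2 hΓ.2.1)
    have h2 : degreeOf 3 q < 4 := by
      rw [degreeOf_lt_iff (by norm_num)]
      intro d hd
      obtain ⟨m, hm, hd'⟩ := Finset.mem_biUnion.1 (support_sum hd)
      obtain rfl := Finset.mem_singleton.1 (support_monomial_subset hd')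
      have h3 := congrFun (he m hm) 3
      have h4 := (ht hm).2
      simp [w] at h3
      omega
    rw [hr, degreeOf_mul_eq hΓ0 hr0] at h2
    omega
  intro m hm
  have := congrArg (coeff (e m)) hq0
  rw [coeff_sum, Finset.sum_eq_single m] at this
  · simpa using this
  · intro m' hm' hne
    rw [coeff_monomial, if_neg fun h => hne (hinj _ hm' _ hm h)]
  · exact fun h => (h hm).elim

end Mon

variable {Γ : MvPolynomial (Fin 4) ℂ} (S : Hyp 3 Γ F)

/-- the points of all charts in `I` -/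
def UI (I : Finset (Fin 3)) : Set (Pts S.P) := {x | ∀ a ∈ I, x ∈ U S a}

theorem smul_mem_nS {P : PModel ℂ F} {M : BD ℂ F} {x : Pts P} (c : ℂ) {z : F} (hz : z ∈ nS M x) :
    c • z ∈ nS M x := fun V hV => (V.v_smul_le c z).trans (hz V hV)

theorem mul_mem_nS {P : PModel ℂ F} {M M' : BD ℂ F} {x : Pts P} {z z' : F} (hz : z ∈ nS M x)
    (hz' : z' ∈ nS M' x) : z * z' ∈ nS (M + M') x := fun V hV => by
  rw [map_mul, val_add]
  exact mul_le_mul' (hz V hV) (hz' V hV)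

theorem mem_nS_zero {P : PModel ℂ F} {x : Pts P} {z : F} : z ∈ nS 0 x ↔ z ∈ oR x := by
  rw [mem_nS_iff (Br.at_zero x), div_one]

theorem o_mul_mem_nS {P : PModel ℂ F} {M : BD ℂ F} {x : Pts P} {z z' : F} (hz : z ∈ oR x)
    (hz' : z' ∈ nS M x) : z * z' ∈ nS M x := by
  simpa using mul_mem_nS (mem_nS_zero.2 hz) hz'

/-- sections of a line bundle over the intersection of the charts in `I` -/
def GmM (M : BD ℂ F) (I : Finset (Fin 3)) : Submodule ℂ F where
  carrier := {f | ∀ x ∈ UI S I, f ∈ nS M x}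
  zero_mem' _ _ := zero_mem _
  add_mem' ha hb x hx := add_mem (ha x hx) (hb x hx)
  smul_mem' c _ hf x hx := smul_mem_nS c (hf x hx)

/-- sections of `O(n)` -/
abbrev Gm (n : ℤ) (I : Finset (Fin 3)) : Submodule ℂ F := GmM S (n • oP S.P) I

variable {S}

theorem mem_GmM {M : BD ℂ F} {I : Finset (Fin 3)} {f : F} :
    f ∈ GmM S M I ↔ ∀ x ∈ UI S I, f ∈ nS M x := Iff.rfl

theorem mem_Gm_zero {I : Finset (Fin 3)} {f : F} : f ∈ Gm S 0 I ↔ ∀ x ∈ UI S I, f ∈ oR x := by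
  simp only [mem_GmM, zero_smul, mem_nS_zero]

theorem GmM.mono {M : BD ℂ F} {I J : Finset (Fin 3)} (h : I ⊆ J) : GmM S M I ≤ GmM S M J :=
  fun _ hf x hx => hf x fun a ha => hx a (h ha)

theorem mem_UI_one {a : Fin 3} {x : Pts S.P} : x ∈ UI S {a} ↔ x ∈ U S a := by simp [UI]

theorem mem_UI_two {a b : Fin 3} {x : Pts S.P} : x ∈ UI S {a, b} ↔ x ∈ U S a ∧ x ∈ U S b := by
  simp [UI]

theorem mem_UI_univ {x : Pts S.P} : x ∈ UI S Finset.univ ↔ ∀ a, x ∈ U S a := by simp [UI]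

theorem at_zy {a : Fin 3} {x : Pts S.P} (hx : x ∈ U S a) (n : ℤ) :
    At (n • oP S.P) x (S.y a.castSucc ^ n) := (at_y (P := S.P) hx).zsmul n

theorem hyp_zero (hΓ : Qt Γ) : aeval S.y Γ = 0 := (S.ker 4 Γ hΓ.1).2 dvd_rfl

/-- the three charts cover -/
theorem exists_U (hΓ : Qt Γ) (x : Pts S.P) : ∃ a, x ∈ U S a := by
  by_contra hx
  push Not at hx
  obtain ⟨i, hi⟩ := exists_pat x
  have h3 : x ∈ pat S.P (3 : Fin 4) := by
    fin_cases i
    · exact (hx 0 hi).elim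
    · exact (hx 1 hi).elim
    · exact (hx 2 hi).elim
    · exact hi
  have h1 : ∀ a : Fin 3, ev (S.y a.castSucc / S.y 3) x = 0 := fun a =>
    not_not.1 (mt (mem_pat_iff (P := S.P) (j := a.castSucc) h3).2 (hx a))
  have h2 : ev (S.y 3 / S.y 3) x = 1 := by
    rw [div_self (S.y_ne 3)]
    exact LP.v_one _
  have h4 := LP.v_aeval (L := lp x) (y_mem (P := S.P) h3) Γ
  have h5 : aeval (fun j => S.y j / S.y 3) Γ = 0 := by
    rw [aeval_div hΓ.1, hyp_zero hΓ, zero_div]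
  have h6 : eval (fun j => ev (S.y j / S.y 3) x) Γ = 0 := by
    refine h4.symm.trans ?_
    change (lp x).v (aeval (fun j => S.y j / S.y 3) Γ) = 0
    rw [h5, LP.v_zero]
  rw [eval_eq', Finset.sum_eq_single (Finsupp.single 3 4)] at h6
  · have a0 := h1 0
    have a1 := h1 1
    have a2 := h1 2
    rw [Fin.prod_univ_four, h2] at h6
    exact hΓ.2.1 (by simpa using h6)
  · intro d hd hne
    have hdeg := deg_four hΓ.1 hd
    have : ∃ a : Fin 3, d a.castSucc ≠ 0 := by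
      by_contra h7
      push Not at h7
      have a0 : d 0 = 0 := h7 0
      have a1 : d 1 = 0 := h7 1
      have a2 : d 2 = 0 := h7 2
      refine hne (Finsupp.ext fun i => ?_)
      fin_cases i <;> simp <;> omega
    obtain ⟨a, ha⟩ := this
    rw [Finset.prod_eq_zero (Finset.mem_univ a.castSucc) (by rw [h1, zero_pow ha]), mul_zero]
  · intro h7
    exact (h7 (mem_support_iff.2 hΓ.2.1)).elim

theorem wd_le_gm (n : ℤ) {I : Finset (Fin 3)} (hI : I.Nonempty) : Wd S.y n I ≤ Gm S n I := by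
  refine Submodule.span_le.2 ?_
  rintro _ ⟨m, hm, rfl⟩ x hx
  obtain ⟨a, ha⟩ := hI
  have hxa := hx a ha
  rw [mem_nS_iff (at_zy hxa n), ← hm.1]
  have : mon S.y m / S.y a.castSucc ^ ∑ i, m i =
      ∏ i : Fin 4, (S.y i / S.y a.castSucc) ^ m i := by
    simp only [div_zpow, mon, Fin.sum_univ_four, Fin.prod_univ_four, zpow_add₀ (S.y_ne _),
      div_mul_div_comm]
  rw [this]
  refine prod_mem fun i _ => ?_
  by_cases hi : 0 ≤ m i
  · obtain ⟨k, hk⟩ := Int.eq_ofNat_of_zero_le hi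
    rw [hk, zpow_natCast]
    exact pow_mem (y_mem (P := S.P) hxa i) k
  · obtain ⟨b, rfl⟩ : ∃ b : Fin 3, b.castSucc = i := by
      refine Fin.exists_castSucc_eq.2 ?_
      rintro rfl
      exact hi hm.2.1
    have hb : b ∈ I := by
      by_contra hb
      exact hi (hm.2.2 b hb)
    exact LP.zpow_mem ((mem_pat_iff (P := S.P) hxa).1 (hx b hb)) _

theorem A_le_Wd (a : Fin 3) {f : F} (hf : f ∈ S.P.A a.castSucc) : f ∈ Wd S.y 0 {a} := by
  induction hf using Algebra.adjoin_induction with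
  | mem x hx =>
    obtain ⟨j, rfl⟩ := hx
    have := Wd.mul S.y_ne (y_mem_Wd {a} j) (zpow_mem_Wd (y := S.y) (Finset.mem_singleton_self a) (-1))
    simpa [div_eq_mul_inv] using this
  | algebraMap c =>
    rw [Algebra.algebraMap_eq_smul_one]
    exact Submodule.smul_mem _ _ (one_mem_Wd _)
  | add x y _ _ hx hy => exact add_mem hx hy
  | mul x y _ _ hx hy => simpa using Wd.mul S.y_ne hx hy

/-- the function whose non-vanishing cuts out `UI S I` in the chart `a` -/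
def cI (a : Fin 3) (I : Finset (Fin 3)) : F := ∏ b ∈ I, S.y b.castSucc / S.y a.castSucc

theorem cI_mem (a : Fin 3) (I : Finset (Fin 3)) : cI (S := S) a I ∈ S.P.A a.castSucc :=
  prod_mem fun b _ => div_mem_chart S.y a.castSucc b.castSucc

theorem cI_ne (a : Fin 3) (I : Finset (Fin 3)) : cI (S := S) a I ≠ 0 :=
  Finset.prod_ne_zero_iff.2 fun _ _ => div_ne_zero (S.y_ne _) (S.y_ne _)

theorem ev_cI {a : Fin 3} {I : Finset (Fin 3)} {x : Pts S.P} (hx : x ∈ U S a) :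
    ev (cI (S := S) a I) x ≠ 0 ↔ x ∈ UI S I := by
  unfold ev cI
  rw [LP.v_prod _ fun b _ => y_mem (P := S.P) hx _, Finset.prod_ne_zero_iff]
  exact forall₂_congr fun b _ => (mem_pat_iff (P := S.P) hx).symm

theorem gm_le_wd (n : ℤ) {I : Finset (Fin 3)} (hI : I.Nonempty) : Gm S n I ≤ Wd S.y n I := by
  intro f hf
  obtain ⟨a, ha⟩ := hI
  obtain ⟨k, hk⟩ := exists_pow_mul_mem (P := S.P) (i := a.castSucc) (V := F)
    (S.P.A a.castSucc).toSubring.toAddSubgroup (fun c hc g hg => (S.P.A a.castSucc).mul_mem hc hg)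
    (f := f / S.y a.castSucc ^ n) (cI_mem a I) fun x hx h0 => by
      obtain ⟨u, hu, e, he, h1, h2⟩ := (mem_lp_iff (P := S.P) hx).1
        ((mem_nS_iff (at_zy hx n)).1 (hf x ((ev_cI hx).1 h0)))
      exact ⟨e, he, h1, by rw [smul_eq_mul, mul_comm, h2]; exact hu⟩
  have h1 := Wd.mono (Finset.singleton_subset_iff.2 ha) (A_le_Wd a hk)
  have h2 : (cI (S := S) a I)⁻¹ ∈ Wd S.y 0 I := by
    rw [cI, ← Finset.prod_inv_distrib]
    refine Finset.prod_induction _ (· ∈ Wd S.y 0 I)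
      (fun u v hu hv => by simpa using Wd.mul S.y_ne hu hv) (one_mem_Wd I) fun b hb => ?_
    have := Wd.mul S.y_ne (y_mem_Wd I a.castSucc) (zpow_mem_Wd (y := S.y) hb (-1))
    simpa [div_eq_mul_inv] using this
  have h3 := Wd.mul S.y_ne (Wd.mul S.y_ne (Wd.pow S.y_ne h2 k) h1) (zpow_mem_Wd (y := S.y) ha n)
  have h4 := cI_ne (S := S) a I
  have h5 := zpow_ne_zero n (S.y_ne a.castSucc)
  rw [smul_eq_mul] at h3
  convert h3 using 1
  · simp
  · rw [inv_pow]
    field_simp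

theorem gm_eq_wd (n : ℤ) {I : Finset (Fin 3)} (hI : I.Nonempty) : Gm S n I = Wd S.y n I :=
  le_antisymm (gm_le_wd n hI) (wd_le_gm n hI)

theorem gm_eq_sp (hΓ : Qt Γ) (n : ℤ) {I : Finset (Fin 3)} (hI : I.Nonempty) :
    Gm S n I = Sp S.y n I := by
  rw [gm_eq_wd n hI, wd_eq_sp S.y_ne hΓ (hyp_zero hΓ)]

theorem gm_one (hΓ : Qt Γ) (n : ℤ) (a : Fin 3) : Gm S n {a} = Sp S.y n {a} :=
  gm_eq_sp hΓ n (Finset.singleton_nonempty _)

theorem gm_two (hΓ : Qt Γ) (n : ℤ) (a b : Fin 3) : Gm S n {a, b} = Sp S.y n {a, b} :=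
  gm_eq_sp hΓ n (Finset.insert_nonempty _ _)

theorem indepS (hΓ : Qt Γ) (n : ℤ) : LinearIndepOn ℂ (mon S.y) (Ex3 n Finset.univ) :=
  indep S.y_ne hΓ (fun k q hq h => (S.ker k q hq).1 h) n

variable (S) in
/-- the generator of `H²(O)` -/
def eH : F := mon S.y ![-1, -1, -1, 3]

theorem eH_mem : eH S ∈ Gm S 0 Finset.univ :=
  wd_le_gm 0 Finset.univ_nonempty (mon_mem_Wd ⟨by simp [Fin.sum_univ_four], by simp, by simp⟩)

theorem h2_aux (hΓ : Qt Γ) {n : ℤ} (hn : 0 ≤ n) : Gm S n Finset.univ ≤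
    (Gm S n {0, 1} ⊔ Gm S n {1, 2} ⊔ Gm S n {0, 2}) ⊔
      (if n = 0 then Submodule.span ℂ {eH S} else ⊥) := by
  rw [gm_eq_sp hΓ n Finset.univ_nonempty, gm_two hΓ, gm_two hΓ, gm_two hΓ]
  refine Submodule.span_le.2 ?_
  rintro _ ⟨m, ⟨⟨h1, h2, -⟩, h3⟩, rfl⟩
  by_cases a2 : 0 ≤ m 2
  · refine Submodule.mem_sup_left (Submodule.mem_sup_left (Submodule.mem_sup_left
      (mon_mem_Sp ⟨⟨h1, h2, fun a ha => ?_⟩, h3⟩)))
    fin_cases a <;> simp_all
  by_cases a0 : 0 ≤ m 0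
  · refine Submodule.mem_sup_left (Submodule.mem_sup_left (Submodule.mem_sup_right
      (mon_mem_Sp ⟨⟨h1, h2, fun a ha => ?_⟩, h3⟩)))
    fin_cases a <;> simp_all
  by_cases a1 : 0 ≤ m 1
  · refine Submodule.mem_sup_left (Submodule.mem_sup_right
      (mon_mem_Sp ⟨⟨h1, h2, fun a ha => ?_⟩, h3⟩))
    fin_cases a <;> simp_all
  rw [Fin.sum_univ_four] at h1
  have hn0 : n = 0 := by omega
  have : m = ![-1, -1, -1, 3] := by
    funext i
    fin_cases i <;> simp <;> omega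
  rw [if_pos hn0, this]
  exact Submodule.mem_sup_right (Submodule.mem_span_singleton_self _)

/-- `H²(O(n)) = 0` for `n ≥ 1` -/
theorem h2_pos (hΓ : Qt Γ) {n : ℤ} (hn : 1 ≤ n) {f : F} (hf : f ∈ Gm S n Finset.univ) :
    ∃ a ∈ Gm S n {0, 1}, ∃ b ∈ Gm S n {1, 2}, ∃ c ∈ Gm S n {0, 2}, f = c - a - b := by
  have := h2_aux hΓ (by omega) hf
  rw [if_neg (by omega), sup_bot_eq] at this
  obtain ⟨u, hu, c, hc, rfl⟩ := Submodule.mem_sup.1 this
  obtain ⟨a, ha, b, hb, rfl⟩ := Submodule.mem_sup.1 hu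
  exact ⟨-a, neg_mem ha, -b, neg_mem hb, c, hc, by ring⟩

/-- `H²(O)` is spanned by `eH` -/
theorem h2_zero (hΓ : Qt Γ) {f : F} (hf : f ∈ Gm S 0 Finset.univ) :
    ∃ a ∈ Gm S 0 {0, 1}, ∃ b ∈ Gm S 0 {1, 2}, ∃ c ∈ Gm S 0 {0, 2}, ∃ t : ℂ,
      f = c - a - b + t • eH S := by
  have := h2_aux hΓ le_rfl hf
  rw [if_pos rfl] at this
  obtain ⟨w, hw, e, he, rfl⟩ := Submodule.mem_sup.1 this
  obtain ⟨t, rfl⟩ := Submodule.mem_span_singleton.1 he
  obtain ⟨u, hu, c, hc, rfl⟩ := Submodule.mem_sup.1 hw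
  obtain ⟨a, ha, b, hb, rfl⟩ := Submodule.mem_sup.1 hu
  exact ⟨-a, neg_mem ha, -b, neg_mem hb, c, hc, t, by ring⟩

theorem sp_inf (hΓ : Qt Γ) (n : ℤ) (I J : Finset (Fin 3)) :
    Sp S.y n I ⊓ Sp S.y n J ≤ Sp S.y n (I ∩ J) := by
  refine (span_inf_span (indepS (S := S) hΓ n) (Ex3.mono (Finset.subset_univ I))
    (Ex3.mono (Finset.subset_univ J))).trans (Submodule.span_mono (Set.image_mono ?_))
  rintro m ⟨h1, h2⟩
  refine ⟨⟨h1.1.1, h1.1.2.1, fun a ha => ?_⟩, h1.2⟩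
  by_cases h : a ∈ I
  · exact h2.1.2.2 a fun h' => ha (Finset.mem_inter.2 ⟨h, h'⟩)
  · exact h1.1.2.2 a h

/-- `H¹(O(n)) = 0` -/
theorem h1 (hΓ : Qt Γ) (n : ℤ) {p q : F} (hp : p ∈ Gm S n {0, 1}) (hq : q ∈ Gm S n {1, 2})
    (hr : p + q ∈ Gm S n {0, 2}) :
    ∃ a : Fin 3 → F, (∀ i, a i ∈ Gm S n {i}) ∧ p = a 0 - a 1 ∧ q = a 1 - a 2 := by
  rw [gm_two hΓ] at hp hq hr
  have h1 : p ∈ Submodule.span ℂ (mon S.y '' (Ex3 n {0, 2} ∪ Ex3 n {1, 2})) := by
    rw [Set.image_union, Submodule.span_union]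
    have := sub_mem (Submodule.mem_sup_left hr) (Submodule.mem_sup_right hq)
    rwa [add_sub_cancel_right] at this
  have h2 := span_inf_span (indepS (S := S) hΓ n) (Ex3.mono (Finset.subset_univ {0, 1}))
    (Set.union_subset (Ex3.mono (Finset.subset_univ {0, 2}))
      (Ex3.mono (Finset.subset_univ {1, 2}))) (Submodule.mem_inf.2 ⟨hp, h1⟩)
  have h3 : p ∈ Sp S.y n {0} ⊔ Sp S.y n {1} := by
    refine Submodule.span_le.2 ?_ h2
    rintro _ ⟨m, ⟨e1, e2 | e2⟩, rfl⟩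
    · refine Submodule.mem_sup_left (mon_mem_Sp ⟨⟨e1.1.1, e1.1.2.1, fun a ha => ?_⟩, e1.2⟩)
      fin_cases a
      · simp at ha
      · exact e2.1.2.2 _ (by simp)
      · exact e1.1.2.2 _ (by simp)
    · refine Submodule.mem_sup_right (mon_mem_Sp ⟨⟨e1.1.1, e1.1.2.1, fun a ha => ?_⟩, e1.2⟩)
      fin_cases a
      · exact e2.1.2.2 _ (by simp)
      · simp at ha
      · exact e1.1.2.2 _ (by simp)
  obtain ⟨u, hu, v, hv, rfl⟩ := Submodule.mem_sup.1 h3
  have h4 : -v - q ∈ Sp S.y n ({1, 2} ∩ {0, 2}) := by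
    refine sp_inf hΓ n _ _
      (Submodule.mem_inf.2 ⟨sub_mem (neg_mem (Sp.mono (by simp) hv)) hq, ?_⟩)
    have := sub_mem (Sp.mono (J := {0, 2}) (by simp) hu) hr
    convert this using 1
    ring
  rw [show ({1, 2} ∩ {0, 2} : Finset (Fin 3)) = {2} by decide] at h4
  refine ⟨![u, -v, -v - q], fun i => ?_, by simp, by simp⟩
  rw [gm_one hΓ]
  fin_cases i
  · exact hu
  · exact neg_mem hv
  · exact h4

/-- `H⁰(O(n))` is spanned by the monomials -/
theorem h0 (hΓ : Qt Γ) (n : ℤ) {f : F} (hf : ∀ a, f ∈ Gm S n {a}) : f ∈ Sp S.y n ∅ := by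
  have h0 := hf 0
  have h1 := hf 1
  rw [gm_one hΓ] at h0 h1
  have := sp_inf hΓ n {0} {1} (Submodule.mem_inf.2 ⟨h0, h1⟩)
  rwa [show ({0} ∩ {1} : Finset (Fin 3)) = ∅ by decide] at this

end Crest.Agent.X262.Mv99
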