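import Crest.Agent.X262.Mv99.Inv
import Crest.Agent.X262.Mv99.Defs
import Crest.Agent.X277.Cns.Prod
import Crest.Agent.X277.Cns.Lift

/-!
# Row 262, G4 / MV (helper99), part 7: products of moves

* `ten h m m'`        : the move on the product field (T1);
* `ten_swap`          : equivariance (T2);
* `same_nsmul`        : powers of the line bundle (T3);
* `pres_ten`, `same_ten` : the product of two deformations (T4).
-/

set_option autoImplicit false

open PowerSeries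

noncomputable section

namespace Crest.Agent.X262.Mv99

open Crest.Agent.X277 Crest.Agent.X277.Lef Crest.Agent.X277.AN.G1 Crest.Agent.X277.BD
open Crest.Agent.X277.BD.Br (On oP kP At)
open Crest.Agent.X277.Cns (pf_isFr pf_ext)
open Crest.Agent.R274.Prod1_134 (IsPF)

section Ten

variable {k F L E : Type*} [Field k] [Field F] [Algebra k F] [Field L] [Algebra k L] [Field E]
  [Algebra k E] {α : F →ₐ[k] E} {β : L →ₐ[k] E} (h : IsPF α β)

include h in
theorem exists_ten (m : Mv k F) (m' : Mv k L) : ∃ φ : E →ₐ[k] E⟦X⟧,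
    (∀ a, φ (α a) = PowerSeries.map (α : F →+* E) (m.ψ (C a))) ∧
    (∀ b, φ (β b) = PowerSeries.map (β : L →+* E) (m'.ψ (C b))) ∧
    ∀ x, constantCoeff (φ x) = x := by
  let g := Algebra.TensorProduct.productMap ((PowerSeries.mapAlgHom α).comp m.hom)
    ((PowerSeries.mapAlgHom β).comp m'.hom)
  have h1 : ∀ z, constantCoeff (g z) = Algebra.TensorProduct.productMap α β z := by
    intro z
    induction z with
    | zero => simp
    | tmul a b => simp [g, mapAlgHom_apply, const_map, m.ψ0, m'.ψ0]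
    | add x y hx hy => simp only [map_add, hx, hy]
  have h2 : ∀ z, z ≠ 0 → IsUnit (g z) := fun z hz => by
    rw [isUnit_iff_constantCoeff, h1]
    exact ((pf_isFr h).map_ne hz).isUnit
  obtain ⟨γ, hγ⟩ := (pf_isFr h).exists_lift g h2
  refine ⟨γ, fun a => ?_, fun b => ?_, fun x => ?_⟩
  · simpa [g, mapAlgHom_apply] using hγ (a ⊗ₜ 1)
  · simpa [g, mapAlgHom_apply] using hγ (1 ⊗ₜ b)
  · obtain ⟨a, b, hb, rfl⟩ := (pf_isFr h).frac' x
    have h3 := (pf_isFr h).map_ne hb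
    have h4 := congrArg (fun z => constantCoeff (γ z)) (div_mul_cancel₀
      (Algebra.TensorProduct.productMap α β a) h3)
    simp only [map_mul, hγ, h1] at h4
    exact (eq_div_iff h3).2 h4

/-- the product of two moves -/
def ten (m : Mv k F) (m' : Mv k L) : Mv k E :=
  Mv.ofHom (exists_ten h m m').choose (exists_ten h m m').choose_spec.2.2
    (PowerSeries.map (α : F →+* E) m.u * PowerSeries.map (β : L →+* E) m'.u)
    (by rw [map_mul, const_map, const_map, m.u0, m'.u0, map_one, map_one, one_mul])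

variable (m m₂ : Mv k F) (m' m₂' : Mv k L)

theorem ten_u : (ten h m m').u =
    PowerSeries.map (α : F →+* E) m.u * PowerSeries.map (β : L →+* E) m'.u := rfl

theorem ten_C_left (a : F) :
    (ten h m m').ψ (C (α a)) = PowerSeries.map (α : F →+* E) (m.ψ (C a)) :=
  (Mv.ofHom_C _ _ _ _ _).trans ((exists_ten h m m').choose_spec.1 a)

theorem ten_C_right (b : L) :
    (ten h m m').ψ (C (β b)) = PowerSeries.map (β : L →+* E) (m'.ψ (C b)) :=
  (Mv.ofHom_C _ _ _ _ _).trans ((exists_ten h m m').choose_spec.2.1 b)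

/-- (T1) -/
theorem ten_left (f : F⟦X⟧) : (ten h m m').ψ (PowerSeries.map (α : F →+* E) f) =
    PowerSeries.map (α : F →+* E) (m.ψ f) :=
  hom_ext (ψ := (ten h m m').ψ.comp (PowerSeries.map (α : F →+* E)))
    (ψ' := (PowerSeries.map (α : F →+* E)).comp m.ψ) (by simp [Mv.ψX]) (by simp [Mv.ψX])
    (fun a => by simpa using ten_C_left h m m' a) f

/-- (T1) -/
theorem ten_right (f : L⟦X⟧) : (ten h m m').ψ (PowerSeries.map (β : L →+* E) f) =
    PowerSeries.map (β : L →+* E) (m'.ψ f) :=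
  hom_ext (ψ := (ten h m m').ψ.comp (PowerSeries.map (β : L →+* E)))
    (ψ' := (PowerSeries.map (β : L →+* E)).comp m'.ψ) (by simp [Mv.ψX]) (by simp [Mv.ψX])
    (fun a => by simpa using ten_C_right h m m' a) f

theorem ten_act (f : F⟦X⟧) (g : L⟦X⟧) :
    (ten h m m').act (PowerSeries.map (α : F →+* E) f * PowerSeries.map (β : L →+* E) g) =
      PowerSeries.map (α : F →+* E) (m.act f) * PowerSeries.map (β : L →+* E) (m'.act g) := by
  simp only [Mv.act_apply, map_mul, ten_left, ten_right, ten_u]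
  ring

include h in
theorem mv_ext {a b : Mv k E} (h1 : ∀ x, a.ψ (C (α x)) = b.ψ (C (α x)))
    (h2 : ∀ x, a.ψ (C (β x)) = b.ψ (C (β x))) (hu : a.u = b.u) : a = b :=
  Mv.ext' (fun x => AlgHom.congr_fun (pf_ext h (γ := a.hom) (γ' := b.hom) h1 h2) x) hu

theorem ten_comp : ten h (m.comp m₂) (m'.comp m₂') = (ten h m m').comp (ten h m₂ m₂') := by
  refine mv_ext h (fun x => ?_) (fun x => ?_) ?_
  · rw [ten_C_left, Mv.comp_ψ, Mv.comp_ψ, ten_C_left, ten_left]
  · rw [ten_C_right, Mv.comp_ψ, Mv.comp_ψ, ten_C_right, ten_right]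
  · simp only [ten_u, Mv.comp_u, map_mul, ten_left, ten_right]
    ring

theorem ten_one : ten h (Mv.one : Mv k F) (Mv.one : Mv k L) = Mv.one := by
  refine mv_ext h (fun x => ?_) (fun x => ?_) ?_
  · simp [ten_C_left]
  · simp [ten_C_right]
  · simp [ten_u]

theorem ten_pow (j : ℕ) : ten h (m.pow j) (m'.pow j) = (ten h m m').pow j := by
  refine mv_ext h (fun x => ?_) (fun x => ?_) ?_
  · simp [ten_C_left]
  · simp [ten_C_right]
  · simp [ten_u, mul_pow]

end Ten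

section Swap

variable {k F E : Type*} [Field k] [Field F] [Algebra k F] [Field E] [Algebra k E]
  {α β : F →ₐ[k] E} (h : IsPF α β) {τ : E →ₐ[k] E} (h1 : ∀ x, τ (α x) = β x)
  (h2 : ∀ x, τ (β x) = α x) (m m' : Mv k F)

include h1 in
theorem map_swap (f : F⟦X⟧) : PowerSeries.map (τ : E →+* E) (PowerSeries.map (α : F →+* E) f) =
    PowerSeries.map (β : F →+* E) f := by
  ext i
  simp [h1]

include h1 h2

/-- (T2) -/
theorem ten_swap (f : E⟦X⟧) : PowerSeries.map (τ : E →+* E) ((ten h m m').ψ f) =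
    (ten h m' m).ψ (PowerSeries.map (τ : E →+* E) f) := by
  refine hom_ext (ψ := (PowerSeries.map (τ : E →+* E)).comp (ten h m m').ψ)
    (ψ' := (ten h m' m).ψ.comp (PowerSeries.map (τ : E →+* E))) (by simp [Mv.ψX])
    (by simp [Mv.ψX]) (fun a => ?_) f
  have := pf_ext h (γ := (PowerSeries.mapAlgHom τ).comp (ten h m m').hom)
    (γ' := (ten h m' m).hom.comp τ)
    (fun x => by simp [mapAlgHom_apply, ten_C_left, h1, ten_C_right, map_swap h1])
    (fun x => by simp [mapAlgHom_apply, ten_C_left, h2, ten_C_right, map_swap h2])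
  simpa [mapAlgHom_apply] using AlgHom.congr_fun this a

theorem ten_swap_u : PowerSeries.map (τ : E →+* E) (ten h m m').u = (ten h m' m).u := by
  rw [ten_u, ten_u, map_mul, map_swap h1, map_swap h2, mul_comm]

theorem ten_swap_act (f : E⟦X⟧) : PowerSeries.map (τ : E →+* E) ((ten h m m').act f) =
    (ten h m' m).act (PowerSeries.map (τ : E →+* E) f) := by
  rw [Mv.act_apply, Mv.act_apply, map_mul, ten_swap h h1 h2, ten_swap_u h h1 h2]

end Swap

section Loc

variable {F L E : Type} [Field F] [Algebra ℂ F] [Field L] [Algebra ℂ L] [Field E] [Algebra ℂ E]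
  {P : PModel ℂ F} {Q : PModel ℂ L}

/-- (T3) -/
theorem same_nsmul {M : BD ℂ F} (hM : M ∈ On P) {p : Pts P} {m m' : Mv ℂ F}
    (hs : m.Same m' (oR p) (nS M p)) (j : ℕ) :
    (m.pow j).Same (m'.pow j) (oR p) (nS (j • M) p) := by
  obtain ⟨g, hg⟩ := hM p
  exact hs.pow hg.ne (fun _ => mem_nS_iff hg) fun _ => mem_nS_iff (hg.nsmul j)

/-- a move which maps a ring into the series over one of its localisations preserves the latter -/
theorem ψ_mem_of {O : LP F} {B : Subalgebra ℂ F} (hO : O.Of B) {m : Mv ℂ F}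
    (hB : ∀ a ∈ B, m.ψ (C a) ∈ serR O.O.toSubring) {f : F} (hf : f ∈ O.O) :
    m.ψ (C f) ∈ serR O.O.toSubring :=
  Mv.ψ_mem_of_loc (B := B) hB (fun f hf => by
    obtain ⟨a, ha, c, hc, h1, h2⟩ := hO.loc f hf
    exact ⟨a, ha, c, hc, c⁻¹, O.inv_mem h1, mul_inv_cancel₀ (LP.ne_zero_of_ne h1), h2⟩) hf

variable {α : F →ₐ[ℂ] E} {β : L →ₐ[ℂ] E} (h : IsPF α β) {p : Pts P} {q : Pts Q}

theorem at_mk {M : BD ℂ F} {M' : BD ℂ L} {g : F} {g' : L} (hg : At M p g) (hg' : At M' q g') :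
    At (pb α M + pb β M') (Cns.mk h p q) (α g * β g') :=
  (At.pb (Cns.fst_p P Q h) (by rwa [Cns.fst_mk])).add
    (At.pb (Cns.snd_p P Q h) (by rwa [Cns.snd_mk]))

theorem left_mem {a : F} (ha : a ∈ oR p) : α a ∈ oR (Cns.mk h p q) := by
  simpa using Cns.mem_mk h ha (one_mem (lp q).O)

theorem right_mem {b : L} (hb : b ∈ oR q) : β b ∈ oR (Cns.mk h p q) := by
  simpa using Cns.mem_mk h (one_mem (lp p).O) hb

theorem map_left_mem {f : F⟦X⟧} (hf : f ∈ serR (oR p)) :
    PowerSeries.map (α : F →+* E) f ∈ serR (oR (Cns.mk h p q)) :=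
  map_mem_ser (M := (oR p).toAddSubgroup) (M' := (oR (Cns.mk h p q)).toAddSubgroup)
    (fun _ ha => left_mem h ha) hf

theorem map_right_mem {f : L⟦X⟧} (hf : f ∈ serR (oR q)) :
    PowerSeries.map (β : L →+* E) f ∈ serR (oR (Cns.mk h p q)) :=
  map_mem_ser (M := (oR q).toAddSubgroup) (M' := (oR (Cns.mk h p q)).toAddSubgroup)
    (fun _ ha => right_mem h ha) hf

theorem ten_ψ_mem {d : Mv ℂ F} {d' : Mv ℂ L} (hd : ∀ a ∈ oR p, d.ψ (C a) ∈ serR (oR p))
    (hd' : ∀ a ∈ oR q, d'.ψ (C a) ∈ serR (oR q)) {f : E} (hf : f ∈ oR (Cns.mk h p q)) :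
    (ten h d d').ψ (C f) ∈ serR (oR (Cns.mk h p q)) := by
  have h1 : (lp (Cns.mk h p q)).Of _ := Cns.lp_mk h p q ▸ Cns.lpP_of h
  refine ψ_mem_of h1 (fun a ha => ?_) hf
  rw [Cns.pr_eq_adjoin'] at ha
  refine Mv.ψ_mem_of_adjoin ?_ ha
  rintro _ (⟨a, ha, rfl⟩ | ⟨b, hb, rfl⟩)
  · rw [ten_C_left]
    exact map_left_mem h (hd a ha)
  · rw [ten_C_right]
    exact map_right_mem h (hd' b hb)

theorem pres_ten {M : BD ℂ F} {M' : BD ℂ L} (hM : M ∈ On P) (hM' : M' ∈ On Q) {d : Mv ℂ F}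
    {d' : Mv ℂ L} (hd : d.Pres (oR p) (nS M p)) (hd' : d'.Pres (oR q) (nS M' q)) :
    (ten h d d').Pres (oR (Cns.mk h p q)) (nS (pb α M + pb β M') (Cns.mk h p q)) := by
  obtain ⟨g, hg⟩ := hM p
  obtain ⟨g', hg'⟩ := hM' q
  obtain ⟨a1, w, hw, e⟩ := (pres_prin hg.ne fun _ => mem_nS_iff hg).1 hd
  obtain ⟨a2, w', hw', e'⟩ := (pres_prin hg'.ne fun _ => mem_nS_iff hg').1 hd'
  have hz := at_mk h hg hg'
  refine (pres_prin hz.ne fun _ => mem_nS_iff hz).2 ⟨fun f hf => ten_ψ_mem h a1 a2 hf, _,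
    mul_mem (map_left_mem h hw) (map_right_mem h hw'), ?_⟩
  have := ten_act h d d' (C g) (C g')
  rw [e, e'] at this
  simp only [map_mul, map_C, RingHom.coe_coe] at this ⊢
  rw [this]
  ring

/-- (T4) -/
theorem same_ten {M : BD ℂ F} {M' : BD ℂ L} (hM : M ∈ On P) (hM' : M' ∈ On Q) {m₁ m₂ : Mv ℂ F}
    {m₁' m₂' : Mv ℂ L} (hs : m₁.Same m₂ (oR p) (nS M p)) (hs' : m₁'.Same m₂' (oR q) (nS M' q)) :
    (ten h m₁ m₁').Same (ten h m₂ m₂') (oR (Cns.mk h p q))
      (nS (pb α M + pb β M') (Cns.mk h p q)) := by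
  obtain ⟨d, hd, rfl⟩ := hs.exists
  obtain ⟨d', hd', rfl⟩ := hs'.exists
  rw [ten_comp]
  exact Mv.same_comp_iff.2 (pres_ten h hM hM' hd hd')

end Loc

theorem Dfm.same {F : Type} [Field F] [Algebra ℂ F] {Γ : MvPolynomial (Fin 4) ℂ}
    {S : Top.Hyp 3 Γ F} {M : BD ℂ F} (D : Dfm S M) {a b : Fin 3} {x : Pts S.P} (ha : x ∈ U S a)
    (hb : x ∈ U S b) : (D.Φ a).Same (D.Φ b) (oR x) (nS M x) :=
  ⟨D.ring a b x ha hb, D.sec a b x ha hb⟩

end Crest.Agent.X262.Mv99
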