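import Crest.Agent.X262.Mv99.Move

/-!
# Row 262, G4 / MV (helper99), part 6: extension from constants, inverses, powers, localisation

* `extd φ`, `Mv.ofHom`, `Mv.hom` : moves are given by their values on constants;
* `Mv.inv`, `Mv.Same`, `same_iff_pres` : two moves define the same structure;
* `Mv.pow`; `prin A g` the principal module, `pres_prin`;
* `ψ_mem_of_loc` : localisation.
-/

set_option autoImplicit false

open PowerSeries

noncomputable section

namespace Crest.Agent.X262.Mv99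

section Extd

variable {L R : Type*} [CommRing L] [CommRing R]

theorem dvd_trunc (n : ℕ) (f : L⟦X⟧) : X ^ n ∣ f - (trunc n f : L⟦X⟧) := by
  rw [X_pow_dvd_iff]
  intro i hi
  rw [map_sub, Polynomial.coeff_coe, coeff_trunc, if_pos hi, sub_self]

theorem ev_dvd (φ : L →+* R⟦X⟧) {n : ℕ} {p q : Polynomial L}
    (h : X ^ n ∣ (p : L⟦X⟧) - (q : L⟦X⟧)) :
    X ^ n ∣ Polynomial.eval₂RingHom φ X p - Polynomial.eval₂RingHom φ X q := by
  have h1 : Polynomial.X ^ n ∣ p - q := by
    rw [Polynomial.X_pow_dvd_iff]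
    intro d hd
    have := X_pow_dvd_iff.1 h d hd
    rwa [map_sub, Polynomial.coeff_coe, Polynomial.coeff_coe, ← Polynomial.coeff_sub] at this
  have := map_dvd (Polynomial.eval₂RingHom φ X) h1
  simpa using this

theorem extd_aux (φ : L →+* R⟦X⟧) {n : ℕ} {f : L⟦X⟧} {p : Polynomial L}
    (h : X ^ n ∣ f - (p : L⟦X⟧)) :
    X ^ n ∣ lim (fun j => Polynomial.eval₂RingHom φ X (trunc j f)) -
      Polynomial.eval₂RingHom φ X p := by
  have h1 := dvd_lim (s := fun j => Polynomial.eval₂RingHom φ X (trunc j f)) (fun j => ev_dvd φ (by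
    have := dvd_sub (dvd_trunc j f) ((pow_dvd_pow _ j.le_succ).trans (dvd_trunc (j + 1) f))
    simpa using this)) n
  have h2 := ev_dvd φ (n := n) (p := trunc n f) (q := p) (by
    simpa using dvd_sub h (dvd_trunc n f))
  simpa using dvd_add h1 h2

/-- the continuous extension of a homomorphism from the constants -/
def extd (φ : L →+* R⟦X⟧) : L⟦X⟧ →+* R⟦X⟧ where
  toFun f := lim fun j => Polynomial.eval₂RingHom φ X (trunc j f)
  map_one' := eq_of_dvd fun n => by simpa using extd_aux φ (n := n) (f := 1) (p := 1) (by simp)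
  map_zero' := eq_of_dvd fun n => by simpa using extd_aux φ (n := n) (f := 0) (p := 0) (by simp)
  map_mul' f g := eq_of_dvd fun n => by
    have h1 := extd_aux φ (dvd_trunc n f)
    have h2 := extd_aux φ (dvd_trunc n g)
    have h3 := extd_aux φ (n := n) (f := f * g) (p := trunc n f * trunc n g) (by
      convert dvd_add ((dvd_trunc n f).mul_right g) ((dvd_trunc n g).mul_left (trunc n f)) using 1
      push_cast
      ring)
    rw [map_mul] at h3
    convert dvd_sub (dvd_sub h3 (h1.mul_right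
      (lim fun j => Polynomial.eval₂RingHom φ X (trunc j g))))
      (h2.mul_left (Polynomial.eval₂RingHom φ X (trunc n f))) using 1
    ring
  map_add' f g := eq_of_dvd fun n => by
    have h1 := extd_aux φ (dvd_trunc n f)
    have h2 := extd_aux φ (dvd_trunc n g)
    have h3 := extd_aux φ (n := n) (f := f + g) (p := trunc n f + trunc n g) (by
      convert dvd_add (dvd_trunc n f) (dvd_trunc n g) using 1
      push_cast
      ring)
    rw [map_add] at h3
    convert dvd_sub (dvd_sub h3 h1) h2 using 1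
    ring

theorem extd_coe (φ : L →+* R⟦X⟧) (p : Polynomial L) :
    extd φ p = Polynomial.eval₂RingHom φ X p :=
  eq_of_dvd fun n => extd_aux φ (n := n) (f := p) (p := p) (by simp)

@[simp] theorem extd_C (φ : L →+* R⟦X⟧) (a : L) : extd φ (C a) = φ a := by
  simpa using extd_coe φ (Polynomial.C a)

@[simp] theorem extd_X (φ : L →+* R⟦X⟧) : extd φ X = X := by
  simpa using extd_coe φ Polynomial.X

/-- homomorphisms which fix `X` are determined by their values on constants -/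
theorem hom_ext {ψ ψ' : L⟦X⟧ →+* R⟦X⟧} (h : ψ X = X) (h' : ψ' X = X)
    (hC : ∀ a, ψ (C a) = ψ' (C a)) (f : L⟦X⟧) : ψ f = ψ' f := by
  refine eq_of_dvd fun n => ?_
  induction n generalizing f with
  | zero => simp
  | succ n ih =>
    obtain ⟨w, hw⟩ := ih (sh f)
    refine ⟨w, ?_⟩
    conv_lhs => rw [eq_C_add f]
    simp only [map_add, map_mul, h, h', hC]
    linear_combination X * hw

theorem map_mem_ser {φ : L →+* R} {M : AddSubgroup L} {M' : AddSubgroup R}
    (h : ∀ a ∈ M, φ a ∈ M') {f : L⟦X⟧} (hf : f ∈ ser M) : PowerSeries.map φ f ∈ ser M' :=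
  fun i => by rw [coeff_map]; exact h _ (hf i)

theorem const_map (φ : L →+* R) (f : L⟦X⟧) :
    constantCoeff (PowerSeries.map φ f) = φ (constantCoeff f) := by
  rw [← coeff_zero_eq_constantCoeff_apply, coeff_map, coeff_zero_eq_constantCoeff_apply]

/-- inverses in `A⟦X⟧` -/
theorem exists_inv_serR {A : Subring L} {f : L⟦X⟧} (hf : f ∈ serR A) {c : L} (hc : c ∈ A)
    (h : constantCoeff f * c = 1) : ∃ g ∈ serR A, f * g = 1 := by
  have h1 : XL (AddMonoidHom.mulLeft (f * C c)) := fun z => by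
    simp only [AddMonoidHom.coe_mulLeft]
    ring
  have h2 := (serR A).mul_mem hf (C_mem_serR hc)
  obtain ⟨g, hg, e⟩ := h1.surj (fun a => by simp [h]) (M := A.toAddSubgroup)
    (fun a ha => (serR A).mul_mem h2 (C_mem_serR ha)) (serR A).one_mem
  exact ⟨C c * g, (serR A).mul_mem (C_mem_serR hc) hg, by rw [← mul_assoc]; exact e⟩

end Extd

variable {k L : Type*} [CommRing k] [CommRing L] [Algebra k L]

namespace Mv

/-- the values on constants -/
def hom (m : Mv k L) : L →ₐ[k] L⟦X⟧ :=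
  { m.ψ.comp C with
    commutes' := fun c => (m.ψk c).trans PowerSeries.algebraMap_apply.symm }

@[simp] theorem hom_apply (m : Mv k L) (a : L) : m.hom a = m.ψ (C a) := rfl

/-- a move from its values on constants -/
def ofHom (φ : L →ₐ[k] L⟦X⟧) (h0 : ∀ a, constantCoeff (φ a) = a) (u : L⟦X⟧)
    (u0 : constantCoeff u = 1) : Mv k L where
  ψ := extd φ
  u := u
  ψX := extd_X _
  ψ0 a := by rw [extd_C]; exact h0 a
  ψk c := by rw [extd_C]; exact (φ.commutes c).trans PowerSeries.algebraMap_apply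
  u0 := u0

theorem ofHom_C (φ : L →ₐ[k] L⟦X⟧) (h0 : ∀ a, constantCoeff (φ a) = a) (u : L⟦X⟧)
    (u0 : constantCoeff u = 1) (a : L) : (ofHom φ h0 u u0).ψ (C a) = φ a := extd_C _ a

/-- the inverse move -/
def inv (m : Mv k L) : Mv k L where
  ψ := m.equiv.symm
  u := m.equiv.symm (m.isUnit_u.unit⁻¹ : (L⟦X⟧)ˣ)
  ψX := m.equiv.symm_apply_eq.2 m.ψX.symm
  ψ0 a := by
    have := m.const (m.equiv.symm (C a))
    rw [← equiv_apply, RingEquiv.apply_symm_apply, constantCoeff_C] at this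
    exact this.symm
  ψk c := m.equiv.symm_apply_eq.2 (m.ψk c).symm
  u0 := by
    have := m.const (m.equiv.symm (m.isUnit_u.unit⁻¹ : (L⟦X⟧)ˣ))
    rw [← equiv_apply, RingEquiv.apply_symm_apply] at this
    rw [← this]
    have h2 := congrArg constantCoeff m.isUnit_u.mul_val_inv
    rwa [map_mul, m.u0, one_mul, map_one] at h2

theorem ψ_inv (m : Mv k L) (f : L⟦X⟧) : m.ψ (m.inv.ψ f) = f := m.equiv.apply_symm_apply f

theorem inv_ψ (m : Mv k L) (f : L⟦X⟧) : m.inv.ψ (m.ψ f) = f := m.equiv.symm_apply_apply f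

theorem comp_inv (m : Mv k L) : m.comp m.inv = one :=
  ext' (fun _ => m.ψ_inv _) (by
    change m.u * m.equiv (m.equiv.symm _) = 1
    rw [RingEquiv.apply_symm_apply, m.isUnit_u.mul_val_inv])

theorem comp_assoc' (a b c : Mv k L) : (a.comp b).comp c = a.comp (b.comp c) :=
  ext' (fun _ => rfl) (by simp [mul_assoc])

theorem one_comp' (m : Mv k L) : one.comp m = m := ext' (fun _ => rfl) (by simp)

theorem comp_one' (m : Mv k L) : m.comp one = m := ext' (fun _ => rfl) (by simp)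

theorem comp_inv_comp (m m' : Mv k L) : m'.comp (m'.inv.comp m) = m := by
  rw [← comp_assoc', comp_inv, one_comp']

theorem act_inj (m : Mv k L) : Function.Injective m.act := m.act_xl.inj m.act0

/-- two moves define the same deformation of `A` and of `N` -/
def Same (m m' : Mv k L) (A : Subring L) (N : AddSubgroup L) : Prop :=
  (serR A).map m.ψ = (serR A).map m'.ψ ∧ (ser N).map m.act = (ser N).map m'.act

variable {m m' d : Mv k L} {A : Subring L} {N : AddSubgroup L}

theorem same_comp_iff : Same (m.comp d) m A N ↔ d.Pres A N := by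
  constructor
  · rintro ⟨h1, h2⟩
    refine ⟨fun a ha => ?_, fun z hz => ?_⟩
    · have : (m.comp d).ψ (C a) ∈ (serR A).map m.ψ := h1 ▸ ⟨_, C_mem_serR ha, rfl⟩
      obtain ⟨g, hg, e⟩ := this
      rwa [← m.bij.1 e]
    · have : (m.comp d).act (C z) ∈ (ser N).map m.act := h2 ▸ ⟨_, C_mem_ser hz, rfl⟩
      obtain ⟨g, hg, e⟩ := this
      rw [comp_act] at e
      rwa [← m.act_inj e]
  · intro h
    constructor
    · ext f
      simp only [Subring.mem_map, comp_ψ]
      constructor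
      · rintro ⟨g, hg, rfl⟩
        exact ⟨_, h.ψ_mem hg, rfl⟩
      · rintro ⟨g, hg, rfl⟩
        obtain ⟨g', h1, rfl⟩ := h.ψ_surj hg
        exact ⟨g', h1, rfl⟩
    · ext f
      simp only [AddSubgroup.mem_map, comp_act]
      constructor
      · rintro ⟨g, hg, rfl⟩
        exact ⟨_, h.act_mem hg, rfl⟩
      · rintro ⟨g, hg, rfl⟩
        obtain ⟨g', h1, rfl⟩ := h.act_surj hg
        exact ⟨g', h1, rfl⟩

theorem same_iff_pres : Same m m' A N ↔ (m'.inv.comp m).Pres A N := by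
  rw [← same_comp_iff (m := m'), comp_inv_comp]

theorem Same.refl (m : Mv k L) (A : Subring L) (N : AddSubgroup L) : Same m m A N := ⟨rfl, rfl⟩

theorem Same.symm (h : Same m m' A N) : Same m' m A N := ⟨h.1.symm, h.2.symm⟩

theorem Same.trans (h : Same m m' A N) (h' : Same m' d A N) : Same m d A N :=
  ⟨h.1.trans h'.1, h.2.trans h'.2⟩

theorem Same.exists (h : Same m m' A N) : ∃ d : Mv k L, d.Pres A N ∧ m = m'.comp d :=
  ⟨_, same_iff_pres.1 h, (comp_inv_comp m m').symm⟩

/-- the move on the `j`-th power of the line bundle -/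
def pow (m : Mv k L) (j : ℕ) : Mv k L :=
  { m with u := m.u ^ j, u0 := by rw [map_pow, m.u0, one_pow] }

@[simp] theorem pow_ψ (m : Mv k L) (j : ℕ) : (m.pow j).ψ = m.ψ := rfl

@[simp] theorem pow_u (m : Mv k L) (j : ℕ) : (m.pow j).u = m.u ^ j := rfl

theorem pow_comp (m m' : Mv k L) (j : ℕ) : (m.comp m').pow j = (m.pow j).comp (m'.pow j) :=
  ext' (fun _ => rfl) (by simp [mul_pow])

theorem pow_act (m : Mv k L) (j : ℕ) (z : L⟦X⟧) : (m.pow j).act (z ^ j) = m.act z ^ j := by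
  simp [act_apply, mul_pow]

theorem pow_act_mul (m : Mv k L) (i j : ℕ) (z w : L⟦X⟧) :
    (m.pow (i + j)).act (z * w) = (m.pow i).act z * (m.pow j).act w := by
  simp only [act_apply, pow_u, pow_ψ, map_mul, pow_add]
  ring

/-- localisation: `O` consists of fractions `a / c` with `a, c ∈ B` and `c` a unit of `O` -/
theorem ψ_mem_of_loc {B : Set L} {O : Subring L} (hB : ∀ a ∈ B, m.ψ (C a) ∈ serR O)
    (hO : ∀ f ∈ O, ∃ a ∈ B, ∃ c ∈ B, ∃ c' ∈ O, c * c' = 1 ∧ f * c = a) {f : L} (hf : f ∈ O) :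
    m.ψ (C f) ∈ serR O := by
  obtain ⟨a, ha, c, hc, c', hc', h1, h2⟩ := hO f hf
  obtain ⟨g, hg, e⟩ := exists_inv_serR (hB c hc) hc' (by rw [m.ψ0, h1])
  have : m.ψ (C f) = m.ψ (C a) * g := by
    rw [← h2, map_mul, map_mul, mul_assoc, e, mul_one]
  rw [this]
  exact (serR O).mul_mem (hB a ha) hg

theorem ψ_mem_of_adjoin {s : Set L} {O : Subalgebra k L}
    (hs : ∀ a ∈ s, m.ψ (C a) ∈ serR O.toSubring) {f : L} (hf : f ∈ Algebra.adjoin k s) :
    m.ψ (C f) ∈ serR O.toSubring := by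
  induction hf using Algebra.adjoin_induction with
  | mem x hx => exact hs x hx
  | algebraMap c => rw [m.ψk]; exact C_mem_serR (O.algebraMap_mem c)
  | add x y _ _ hx hy => rw [map_add, map_add]; exact add_mem hx hy
  | mul x y _ _ hx hy => rw [map_mul, map_mul]; exact mul_mem hx hy

end Mv

section Prin

variable {k L : Type*} [CommRing k] [Field L] [Algebra k L] {A : Subring L} {N : AddSubgroup L}
  {g : L}

theorem mem_ser_prin (hg : g ≠ 0) (hN : ∀ z, z ∈ N ↔ z / g ∈ A) {f : L⟦X⟧} :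
    f ∈ ser N ↔ ∃ w ∈ serR A, f = C g * w := by
  constructor
  · intro hf
    refine ⟨C g⁻¹ * f, fun i => ?_, by rw [← mul_assoc, ← map_mul, mul_inv_cancel₀ hg]; simp⟩
    rw [coeff_C_mul, inv_mul_eq_div]
    exact (hN _).1 (hf i)
  · rintro ⟨w, hw, rfl⟩ i
    rw [hN, coeff_C_mul, mul_div_cancel_left₀ _ hg]
    exact hw i

/-- preservation of a principal module -/
theorem pres_prin (hg : g ≠ 0) (hN : ∀ z, z ∈ N ↔ z / g ∈ A) {m : Mv k L} :
    m.Pres A N ↔ (∀ a ∈ A, m.ψ (C a) ∈ serR A) ∧ ∃ w ∈ serR A, m.act (C g) = C g * w := by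
  refine and_congr_right fun h => ⟨fun h' => ?_, ?_⟩
  · exact (mem_ser_prin hg hN).1 (h' g ((hN g).2 (by rw [div_self hg]; exact A.one_mem)))
  · rintro ⟨w, hw, e⟩ z hz
    refine (mem_ser_prin hg hN).2 ⟨m.ψ (C (z / g)) * w, mul_mem (h _ ((hN z).1 hz)) hw, ?_⟩
    have : C z = C (z / g) * C g := by rw [← map_mul, div_mul_cancel₀ _ hg]
    rw [this, m.act_mul, e]
    ring

/-- the deformed principal module -/
theorem mem_map_act (hg : g ≠ 0) (hN : ∀ z, z ∈ N ↔ z / g ∈ A) {m : Mv k L} {f : L⟦X⟧} :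
    f ∈ (ser N).map m.act ↔ ∃ w ∈ (serR A).map m.ψ, f = m.act (C g) * w := by
  constructor
  · rintro ⟨z, hz, rfl⟩
    obtain ⟨w, hw, rfl⟩ := (mem_ser_prin hg hN).1 hz
    exact ⟨_, ⟨w, hw, rfl⟩, by rw [mul_comm, m.act_mul, mul_comm]⟩
  · rintro ⟨_, ⟨w, hw, rfl⟩, rfl⟩
    exact ⟨C g * w, (mem_ser_prin hg hN).2 ⟨w, hw, rfl⟩, by rw [mul_comm, m.act_mul, mul_comm]⟩

theorem Mv.Pres.pow (hg : g ≠ 0) (hN : ∀ z, z ∈ N ↔ z / g ∈ A) {j : ℕ} {N' : AddSubgroup L}
    (hN' : ∀ z, z ∈ N' ↔ z / g ^ j ∈ A) {m : Mv k L} (h : m.Pres A N) : (m.pow j).Pres A N' := by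
  obtain ⟨h1, w, hw, e⟩ := (pres_prin hg hN).1 h
  exact (pres_prin (pow_ne_zero j hg) hN').2 ⟨h1, w ^ j, pow_mem hw j, by
    rw [map_pow, m.pow_act, e, mul_pow]⟩

theorem Mv.Same.pow (hg : g ≠ 0) (hN : ∀ z, z ∈ N ↔ z / g ∈ A) {j : ℕ} {N' : AddSubgroup L}
    (hN' : ∀ z, z ∈ N' ↔ z / g ^ j ∈ A) {m m' : Mv k L} (h : m.Same m' A N) :
    (m.pow j).Same (m'.pow j) A N' := by
  obtain ⟨d, hd, rfl⟩ := h.exists
  rw [Mv.pow_comp]
  exact Mv.same_comp_iff.2 (hd.pow hg hN hN')

end Prin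

end Crest.Agent.X262.Mv99
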