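import Crest.Agent.X262.Mv99.Ser

/-!
# Row 262, G4 / MV (helper99), part 2: moves and the cocycle lemma

A move of the `k`-algebra `L` is a pair `(ψ, u)`: a ring endomorphism `ψ` of `L⟦X⟧` which fixes `X`
and `k` and is the identity modulo `X`, and a series `u` with constant term one.  It acts on
sections of a line bundle by `z ↦ u * ψ z`.

* `Mv k L`, `Mv.one`, `Mv.comp`, `Mv.exp`, `Mv.act`;
* `Mv.Pres m A N` : the move preserves `A⟦X⟧` and `N⟦X⟧`;
* `Op A N D r`    : the operator `D + r` preserves `A` and `N`;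
* `Df n m m' D r` : `m = m' + X ^ n (D, r)` modulo `X ^ (n + 1)`;
* `cocycle`       : if every operator on the triple overlap is a coboundary, every first order
  cocycle is the first term of a cocycle of moves.
-/

set_option autoImplicit false

open PowerSeries

noncomputable section

namespace Crest.Agent.X262.Mv99

/-- a move -/
structure Mv (k L : Type*) [CommRing k] [CommRing L] [Algebra k L] where
  /-- the action on functions -/
  ψ : L⟦X⟧ →+* L⟦X⟧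
  /-- the multiplier for sections -/
  u : L⟦X⟧
  ψX : ψ X = X
  ψ0 : ∀ a, constantCoeff (ψ (C a)) = a
  ψk : ∀ c : k, ψ (C (algebraMap k L c)) = C (algebraMap k L c)
  u0 : constantCoeff u = 1

variable {k L : Type*} [CommRing k] [CommRing L] [Algebra k L]

/-- the operator `D + r` preserves `A` and `N` -/
def Op (A : Subring L) (N : AddSubgroup L) (D : Derivation k L L) (r : L) : Prop :=
  (∀ a ∈ A, D a ∈ A) ∧ ∀ z ∈ N, D z + r * z ∈ N

theorem Op.add {A : Subring L} {N : AddSubgroup L} {D D' : Derivation k L L} {r r' : L}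
    (h : Op A N D r) (h' : Op A N D' r') : Op A N (D + D') (r + r') :=
  ⟨fun a ha => A.add_mem (h.1 a ha) (h'.1 a ha), fun z hz => by
    have := N.add_mem (h.2 z hz) (h'.2 z hz)
    convert this using 1
    rw [Derivation.add_apply]
    ring⟩

theorem Op.neg {A : Subring L} {N : AddSubgroup L} {D : Derivation k L L} {r : L}
    (h : Op A N D r) : Op A N (-D) (-r) :=
  ⟨fun a ha => A.neg_mem (h.1 a ha), fun z hz => by
    have := N.neg_mem (h.2 z hz)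
    convert this using 1
    rw [Derivation.neg_apply]
    ring⟩

namespace Mv

variable (m m' m'' : Mv k L)

theorem xl : XL (m.ψ : L⟦X⟧ →+ L⟦X⟧) := fun f => by
  change m.ψ (X * f) = X * m.ψ f
  rw [map_mul, m.ψX]

theorem ψ_pow (n : ℕ) (f : L⟦X⟧) : m.ψ (X ^ n * f) = X ^ n * m.ψ f := m.xl.pow n f

theorem const (f : L⟦X⟧) : constantCoeff (m.ψ f) = constantCoeff f := m.xl.const m.ψ0 f

theorem ψ_dvd {n : ℕ} {f : L⟦X⟧} (h : X ^ n ∣ f) : X ^ n ∣ m.ψ f := m.xl.dvd h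

theorem dvd_of_ψ {n : ℕ} {f : L⟦X⟧} (h : X ^ n ∣ m.ψ f) : X ^ n ∣ f := m.xl.dvd_of_dvd m.ψ0 h

theorem dvd_succ (n : ℕ) (f : L⟦X⟧) : X ^ (n + 1) ∣ m.ψ (X ^ n * f) - X ^ n * f :=
  m.xl.dvd_succ m.ψ0 n f

theorem bij : Function.Bijective m.ψ := m.xl.bij m.ψ0

/-- the action on functions as an automorphism -/
def equiv : L⟦X⟧ ≃+* L⟦X⟧ := RingEquiv.ofBijective m.ψ m.bij

@[simp] theorem equiv_apply (f : L⟦X⟧) : m.equiv f = m.ψ f := rfl

theorem isUnit_u : IsUnit m.u := by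
  rw [isUnit_iff_constantCoeff, m.u0]
  exact isUnit_one

/-- the series over `k` are fixed -/
theorem ψ_map (f : k⟦X⟧) :
    m.ψ (PowerSeries.map (algebraMap k L) f) = PowerSeries.map (algebraMap k L) f := by
  refine eq_of_dvd fun n => ?_
  induction n generalizing f with
  | zero => simp
  | succ n ih =>
    obtain ⟨w, hw⟩ := ih (sh f)
    refine ⟨w, ?_⟩
    conv_lhs => rw [eq_C_add f]
    simp only [map_add, map_mul, map_C, map_X, m.ψX, m.ψk]
    linear_combination X * hw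

/-- the action on sections -/
def act : L⟦X⟧ →+ L⟦X⟧ where
  toFun z := m.u * m.ψ z
  map_zero' := by simp
  map_add' a b := by rw [map_add, mul_add]

theorem act_apply (z : L⟦X⟧) : m.act z = m.u * m.ψ z := rfl

theorem act_xl : XL m.act := fun f => by
  rw [act_apply, act_apply, map_mul, m.ψX]
  ring

theorem act0 (a : L) : constantCoeff (m.act (C a)) = a := by
  rw [act_apply, map_mul, m.u0, m.ψ0, one_mul]

theorem act_mul (f z : L⟦X⟧) : m.act (f * z) = m.ψ f * m.act z := by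
  rw [act_apply, act_apply, map_mul]
  ring

/-- the trivial move -/
def one : Mv k L where
  ψ := RingHom.id _
  u := 1
  ψX := rfl
  ψ0 a := by simp
  ψk _ := rfl
  u0 := by simp

/-- composition -/
def comp : Mv k L where
  ψ := m.ψ.comp m'.ψ
  u := m.u * m.ψ m'.u
  ψX := by rw [RingHom.comp_apply, m'.ψX, m.ψX]
  ψ0 a := by rw [RingHom.comp_apply, m.const, m'.ψ0]
  ψk c := by rw [RingHom.comp_apply, m'.ψk, m.ψk]
  u0 := by rw [map_mul, m.u0, m.const, m'.u0, one_mul]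

@[simp] theorem one_ψ (f : L⟦X⟧) : (one : Mv k L).ψ f = f := rfl
@[simp] theorem one_u : (one : Mv k L).u = 1 := rfl
@[simp] theorem comp_ψ (f : L⟦X⟧) : (m.comp m').ψ f = m.ψ (m'.ψ f) := rfl
@[simp] theorem comp_u : (m.comp m').u = m.u * m.ψ m'.u := rfl

theorem one_act (z : L⟦X⟧) : (one : Mv k L).act z = z := by simp [act_apply]

theorem comp_act (z : L⟦X⟧) : (m.comp m').act z = m.act (m'.act z) := by
  simp only [act_apply, comp_u, comp_ψ, map_mul, mul_assoc]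

theorem ext' {m m' : Mv k L} (h : ∀ a, m.ψ (C a) = m'.ψ (C a)) (hu : m.u = m'.u) : m = m' := by
  have h1 : m.ψ = m'.ψ := RingHom.ext fun f => m.xl.ext m'.xl h f
  cases m
  cases m'
  simp only at h1 hu
  subst h1 hu
  rfl

/-- the move preserves `A⟦X⟧` and `N⟦X⟧` -/
def Pres (A : Subring L) (N : AddSubgroup L) : Prop :=
  (∀ a ∈ A, m.ψ (C a) ∈ serR A) ∧ ∀ z ∈ N, m.act (C z) ∈ ser N

variable {m m' m''} {A : Subring L} {N : AddSubgroup L}

theorem Pres.ψ_mem (h : m.Pres A N) {f : L⟦X⟧} (hf : f ∈ serR A) : m.ψ f ∈ serR A :=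
  m.xl.mem (M := A.toAddSubgroup) h.1 hf

theorem Pres.ψ_mem_iff (h : m.Pres A N) {f : L⟦X⟧} : m.ψ f ∈ serR A ↔ f ∈ serR A :=
  m.xl.mem_iff m.ψ0 (M := A.toAddSubgroup) h.1

theorem Pres.act_mem (h : m.Pres A N) {f : L⟦X⟧} (hf : f ∈ ser N) : m.act f ∈ ser N :=
  m.act_xl.mem h.2 hf

theorem Pres.act_mem_iff (h : m.Pres A N) {f : L⟦X⟧} : m.act f ∈ ser N ↔ f ∈ ser N :=
  m.act_xl.mem_iff m.act0 h.2

theorem Pres.ψ_surj (h : m.Pres A N) {g : L⟦X⟧} (hg : g ∈ serR A) : ∃ f ∈ serR A, m.ψ f = g :=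
  m.xl.surj m.ψ0 (M := A.toAddSubgroup) h.1 hg

theorem Pres.act_surj (h : m.Pres A N) {g : L⟦X⟧} (hg : g ∈ ser N) : ∃ f ∈ ser N, m.act f = g :=
  m.act_xl.surj m.act0 h.2 hg

theorem pres_one (A : Subring L) (N : AddSubgroup L) : (one : Mv k L).Pres A N :=
  ⟨fun _ ha => C_mem_serR ha, fun z hz => by rw [one_act]; exact C_mem_ser hz⟩

theorem Pres.comp (h : m.Pres A N) (h' : m'.Pres A N) : (m.comp m').Pres A N :=
  ⟨fun a ha => h.ψ_mem (h'.1 a ha), fun z hz => by rw [comp_act]; exact h.act_mem (h'.2 z hz)⟩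

/-- `m = m' + X ^ n (D, r)` modulo `X ^ (n + 1)` -/
def Df (n : ℕ) (m m' : Mv k L) (D : Derivation k L L) (r : L) : Prop :=
  (∀ a, X ^ (n + 1) ∣ m.ψ (C a) - m'.ψ (C a) - X ^ n * C (D a)) ∧
    X ^ (n + 1) ∣ m.u - m'.u - X ^ n * C r

/-- congruence modulo `X ^ n` -/
def Cg (n : ℕ) (m m' : Mv k L) : Prop :=
  (∀ a, X ^ n ∣ m.ψ (C a) - m'.ψ (C a)) ∧ X ^ n ∣ m.u - m'.u

variable {n : ℕ} {D D' : Derivation k L L} {r r' : L}

theorem Cg.refl (n : ℕ) (m : Mv k L) : Cg n m m := ⟨fun _ => by simp, by simp⟩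

theorem Cg.symm (h : Cg n m m') : Cg n m' m :=
  ⟨fun a => dvd_sub_comm.1 (h.1 a), dvd_sub_comm.1 h.2⟩

theorem Cg.trans (h : Cg n m m') (h' : Cg n m' m'') : Cg n m m'' :=
  ⟨fun a => by simpa using dvd_add (h.1 a) (h'.1 a), by simpa using dvd_add h.2 h'.2⟩

theorem Cg.mono (h : Cg n m m') {j : ℕ} (hj : j ≤ n) : Cg j m m' :=
  ⟨fun a => (pow_dvd_pow _ hj).trans (h.1 a), (pow_dvd_pow _ hj).trans h.2⟩

theorem Cg.ψ_dvd (h : Cg n m m') (f : L⟦X⟧) : X ^ n ∣ m.ψ f - m'.ψ f := m.xl.dvd_sub m'.xl h.1 f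

theorem cg_one (m m' : Mv k L) : Cg 1 m m' :=
  ⟨fun a => by rw [pow_one, X_dvd_iff, map_sub, m.ψ0, m'.ψ0, sub_self],
    by rw [pow_one, X_dvd_iff, map_sub, m.u0, m'.u0, sub_self]⟩

theorem Cg.comp {m₁ m₁' m₂ m₂' : Mv k L} (h₁ : Cg n m₁ m₁') (h₂ : Cg n m₂ m₂') :
    Cg n (m₁.comp m₂) (m₁'.comp m₂') := by
  have key : ∀ f f' : L⟦X⟧, X ^ n ∣ f - f' → X ^ n ∣ m₁.ψ f - m₁'.ψ f' := by
    intro f f' h
    have := dvd_add (m₁.ψ_dvd h) (h₁.ψ_dvd f')
    simpa using this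
  refine ⟨fun a => key _ _ (h₂.1 a), ?_⟩
  have := dvd_add ((key _ _ h₂.2).mul_left m₁.u) (h₁.2.mul_right (m₁'.ψ m₂'.u))
  convert this using 1
  simp only [comp_u]
  ring

theorem eq_of_cg (h : ∀ n, Cg n m m') : m = m' :=
  ext' (fun a => eq_of_dvd fun n => (h n).1 a) (eq_of_dvd fun n => (h n).2)

theorem Df.cg (h : Df n m m' D r) : Cg n m m' := by
  refine ⟨fun a => ?_, ?_⟩
  · simpa using dvd_add ((pow_dvd_pow _ n.le_succ).trans (h.1 a)) (dvd_mul_right (X ^ n) (C (D a)))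
  · simpa using dvd_add ((pow_dvd_pow _ n.le_succ).trans h.2) (dvd_mul_right (X ^ n) (C r))

theorem df_zero : Df n m m' 0 0 ↔ Cg (n + 1) m m' := by simp [Df, Cg]

theorem Df.trans (h : Df n m m' D r) (h' : Df n m' m'' D' r') : Df n m m'' (D + D') (r + r') := by
  refine ⟨fun a => ?_, ?_⟩
  · convert dvd_add (h.1 a) (h'.1 a) using 1
    rw [Derivation.add_apply, map_add]
    ring
  · convert dvd_add h.2 h'.2 using 1
    rw [map_add]
    ring

theorem Df.symm (h : Df n m m' D r) : Df n m' m (-D) (-r) := by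
  refine ⟨fun a => ?_, ?_⟩
  · convert (h.1 a).neg_right using 1
    rw [Derivation.neg_apply, map_neg]
    ring
  · convert h.2.neg_right using 1
    rw [map_neg]
    ring

theorem Df.ψ_dvd (h : Df n m m' D r) (f : L⟦X⟧) :
    X ^ (n + 1) ∣ m.ψ f - m'.ψ f - X ^ n * C (D (constantCoeff f)) := by
  obtain ⟨w, hw⟩ := h.cg.ψ_dvd (sh f)
  obtain ⟨w', hw'⟩ := h.1 (constantCoeff f)
  refine ⟨w + w', ?_⟩
  have e := eq_C_add f
  generalize constantCoeff f = a at e hw' ⊢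
  rw [e, map_add, map_add, map_mul, map_mul, m.ψX, m'.ψX]
  linear_combination X * hw + hw'

theorem Df.comp {m₁ m₁' m₂ m₂' : Mv k L} (h₁ : Df n m₁ m₁' D r) (h₂ : Df n m₂ m₂' D' r') :
    Df n (m₁.comp m₂) (m₁'.comp m₂') (D + D') (r + r') := by
  have key : ∀ (f f' : L⟦X⟧) (b : L), X ^ (n + 1) ∣ f - f' - X ^ n * C b →
      X ^ (n + 1) ∣ m₁.ψ f - m₁'.ψ f' - X ^ n * C (D (constantCoeff f') + b) := by
    intro f f' b h
    have h1 := m₁.ψ_dvd h
    rw [map_sub, map_sub] at h1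
    convert dvd_add (dvd_add h1 (m₁.dvd_succ n (C b))) (h₁.ψ_dvd f') using 1
    rw [map_add]
    ring
  refine ⟨fun a => ?_, ?_⟩
  · have := key _ _ _ (h₂.1 a)
    rwa [m₂'.ψ0] at this
  · have h1 := key _ _ _ h₂.2
    rw [m₂'.u0, Derivation.map_one_eq_zero, zero_add] at h1
    obtain ⟨w, hw⟩ := h1
    obtain ⟨w', hw'⟩ := h₁.2
    obtain ⟨a, ha⟩ := X_dvd_sub_C m₁.u
    obtain ⟨b, hb⟩ := X_dvd_sub_C (m₁'.ψ m₂'.u)
    rw [m₁.u0, map_one] at ha
    rw [m₁'.const, m₂'.u0, map_one] at hb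
    refine ⟨m₁.u * w + w' * m₁'.ψ m₂'.u + a * C r' + b * C r, ?_⟩
    simp only [comp_u, map_add]
    linear_combination m₁.u * hw + m₁'.ψ m₂'.u * hw' + X ^ n * C r' * ha + X ^ n * C r * hb

/-- the defect of two congruent moves -/
theorem Cg.exists_df (h : Cg n m m') : ∃ D r, Df n m m' D r := by
  let θ : L → L := fun a => coeff n (m.ψ (C a) - m'.ψ (C a))
  have hθ : ∀ a, X ^ (n + 1) ∣ m.ψ (C a) - m'.ψ (C a) - X ^ n * C (θ a) :=
    fun a => dvd_succ_of (h.1 a)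
  have hadd : ∀ a b, θ (a + b) = θ a + θ b := fun a b => by
    simp only [θ, map_add, map_sub]
    ring
  have hmul : ∀ a b, θ (a * b) = a * θ b + b * θ a := fun a b => by
    refine coeff_of_dvd_succ ?_
    obtain ⟨w, hw⟩ := hθ a
    obtain ⟨w', hw'⟩ := hθ b
    obtain ⟨p, hp⟩ := X_dvd_sub_C (m.ψ (C a))
    obtain ⟨q, hq⟩ := X_dvd_sub_C (m'.ψ (C b))
    rw [m.ψ0] at hp
    rw [m'.ψ0] at hq
    refine ⟨m.ψ (C a) * w' + w * m'.ψ (C b) + p * C (θ b) + q * C (θ a), ?_⟩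
    simp only [map_mul, map_add]
    linear_combination m.ψ (C a) * hw' + m'.ψ (C b) * hw + X ^ n * C (θ b) * hp +
      X ^ n * C (θ a) * hq
  have hk : ∀ c : k, θ (algebraMap k L c) = 0 := fun c => by simp only [θ, ψk, sub_self, map_zero]
  let T : L →ₗ[k] L :=
    { toFun := θ
      map_add' := hadd
      map_smul' := fun c a => by
        simp only [Algebra.smul_def, hmul, hk, RingHom.id_apply, mul_zero, add_zero] }
  exact ⟨Derivation.mk' T fun a b => hmul a b, _, hθ, dvd_succ_of h.2⟩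

theorem Df.act_dvd (h : Df n m m' D r) (z : L) :
    X ^ (n + 1) ∣ m.act (C z) - m'.act (C z) - X ^ n * C (D z + r * z) := by
  obtain ⟨w, hw⟩ := h.1 z
  obtain ⟨w', hw'⟩ := h.2
  obtain ⟨p, hp⟩ := X_dvd_sub_C m.u
  obtain ⟨q, hq⟩ := X_dvd_sub_C (m'.ψ (C z))
  rw [m.u0, map_one] at hp
  rw [m'.ψ0] at hq
  refine ⟨m.u * w + w' * m'.ψ (C z) + p * C (D z) + q * C r, ?_⟩
  simp only [act_apply, map_mul, map_add]
  linear_combination m.u * hw + m'.ψ (C z) * hw' + X ^ n * C (D z) * hp + X ^ n * C r * hq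

theorem Df.op (h : Df n m m' D r) (hm : m.Pres A N) (hm' : m'.Pres A N) : Op A N D r := by
  refine ⟨fun a ha => ?_, fun z hz => ?_⟩
  · rw [← coeff_of_dvd_succ (h.1 a)]
    exact (serR A).sub_mem (hm.1 a ha) (hm'.1 a ha) n
  · rw [← coeff_of_dvd_succ (h.act_dvd z)]
    exact (ser N).sub_mem (hm.2 z hz) (hm'.2 z hz) n

theorem Df.coeff_ψ (h : Df (n + 1) m one D r) (a : L) : coeff (n + 1) (m.ψ (C a)) = D a := by
  have := coeff_of_dvd_succ (h.1 a)
  rwa [map_sub, one_ψ, coeff_succ_C, sub_zero] at this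

/-! ### limits -/

/-- the limit of a Cauchy sequence of moves -/
def limit (s : ℕ → Mv k L) (h : ∀ n, Cg n (s (n + 1)) (s n)) : Mv k L :=
  have h1 : ∀ f n, X ^ n ∣ lim (fun j => (s j).ψ f) - (s n).ψ f :=
    fun f n => dvd_lim (s := fun j => (s j).ψ f) (fun j => (h j).ψ_dvd f) n
  have h2 : ∀ n, X ^ n ∣ lim (fun j => (s j).u) - (s n).u :=
    fun n => dvd_lim (s := fun j => (s j).u) (fun j => (h j).2) n
  { ψ :=
      { toFun := fun f => lim fun j => (s j).ψ f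
        map_one' := eq_of_dvd fun n => by simpa using h1 1 n
        map_zero' := eq_of_dvd fun n => by simpa using h1 0 n
        map_mul' := fun f g => eq_of_dvd fun n => by
          have a1 := h1 (f * g) n
          rw [map_mul] at a1
          convert dvd_sub (dvd_sub a1 ((h1 f n).mul_right (lim fun j => (s j).ψ g)))
            ((h1 g n).mul_left ((s n).ψ f)) using 1
          ring
        map_add' := fun f g => eq_of_dvd fun n => by
          have a1 := h1 (f + g) n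
          rw [map_add] at a1
          convert dvd_sub (dvd_sub a1 (h1 f n)) (h1 g n) using 1
          ring }
    u := lim fun j => (s j).u
    ψX := eq_of_dvd fun n => by
      have := h1 X n
      rwa [(s n).ψX] at this
    ψ0 := fun a => by
      have := h1 (C a) 1
      rw [pow_one, X_dvd_iff, map_sub, (s 1).ψ0, sub_eq_zero] at this
      exact this
    ψk := fun c => eq_of_dvd fun n => by
      have := h1 (C (algebraMap k L c)) n
      rwa [(s n).ψk] at this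
    u0 := by
      have := h2 1
      rwa [pow_one, X_dvd_iff, map_sub, (s 1).u0, sub_eq_zero] at this }

theorem cg_limit (s : ℕ → Mv k L) (h : ∀ n, Cg n (s (n + 1)) (s n)) (n : ℕ) :
    Cg n (limit s h) (s n) :=
  ⟨fun a => dvd_lim (s := fun j => (s j).ψ (C a)) (fun j => (h j).ψ_dvd _) n,
    dvd_lim (s := fun j => (s j).u) (fun j => (h j).2) n⟩

theorem Cg.act_dvd (h : Cg n m m') (f : L⟦X⟧) : X ^ n ∣ m.act f - m'.act f := by
  convert dvd_add ((h.ψ_dvd f).mul_left m.u) (h.2.mul_right (m'.ψ f)) using 1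
  rw [act_apply, act_apply]
  ring

theorem pres_of_cg (h : ∀ n, ∃ m' : Mv k L, m'.Pres A N ∧ Cg n m m') : m.Pres A N := by
  refine ⟨fun a ha => mem_ser_of_approx fun n => ?_, fun z hz => mem_ser_of_approx fun n => ?_⟩
  · obtain ⟨m', h1, h2⟩ := h n
    exact ⟨_, h1.1 a ha, h2.1 a⟩
  · obtain ⟨m', h1, h2⟩ := h n
    exact ⟨_, h1.2 z hz, h2.act_dvd _⟩

/-! ### exponentials -/

variable [Algebra ℚ L]

/-- the additive map of a derivation -/
def dA (D : Derivation k L L) : L →+ L := D.toLinearMap.toAddMonoidHom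

/-- the additive map `D + r` -/
def dT (D : Derivation k L L) (r : L) : L →+ L := dA D + AddMonoidHom.mulLeft r

omit [Algebra ℚ L] in
@[simp] theorem dA_apply (D : Derivation k L L) (a : L) : dA D a = D a := rfl

omit [Algebra ℚ L] in
@[simp] theorem dT_apply (D : Derivation k L L) (r a : L) : dT D r a = D a + r * a := rfl

omit [Algebra ℚ L] in
theorem dA_mul (D : Derivation k L L) (a b : L) : dA D (a * b) = dA D a * b + a * dA D b := by
  simp only [dA_apply, Derivation.leibniz, smul_eq_mul]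
  ring

omit [Algebra ℚ L] in
theorem dT_mul (D : Derivation k L L) (r a b : L) :
    dT D r (a * b) = dT D r a * b + a * dA D b := by
  simp only [dA_apply, dT_apply, Derivation.leibniz, smul_eq_mul]
  ring

/-- the exponential of `X ^ n (D + r)` -/
def exp (hn : 1 ≤ n) (D : Derivation k L L) (r : L) : Mv k L :=
  have h1 : ex hn (dA D) 1 = 1 := by
    have := ex_of_zero hn (T := dA D) (a := 1) (by simp)
    rwa [map_one] at this
  { ψ :=
      { toFun := ex hn (dA D)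
        map_one' := h1
        map_zero' := map_zero _
        map_mul' := ex_mul hn (dA_mul D)
        map_add' := map_add _ }
    u := ex hn (dT D r) 1
    ψX := by
      have := ex_xl hn (dA D) 1
      rw [mul_one, h1, mul_one] at this
      exact this
    ψ0 := ex_const hn _
    ψk := fun c => ex_of_zero hn (by simp)
    u0 := by
      have := ex_const hn (dT D r) 1
      rwa [map_one] at this }

theorem exp_act (hn : 1 ≤ n) (D : Derivation k L L) (r : L) (z : L⟦X⟧) :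
    (exp hn D r).act z = ex hn (dT D r) z := by
  have := ex_mul hn (dT_mul D r) 1 z
  rw [one_mul] at this
  exact this.symm

theorem df_exp (hn : 1 ≤ n) (D : Derivation k L L) (r : L) : Df n (exp hn D r) one D r := by
  refine ⟨fun a => ex_C hn (dA D) a, ?_⟩
  have := ex_C hn (dT D r) 1
  change X ^ (n + 1) ∣ ex hn (dT D r) 1 - 1 - X ^ n * C r
  simpa using this

theorem pres_exp (hn : 1 ≤ n) (h : Op A N D r) (hA : ∀ c : ℚ, ∀ a ∈ A, c • a ∈ A)
    (hN : ∀ c : ℚ, ∀ z ∈ N, c • z ∈ N) : (exp hn D r).Pres A N :=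
  ⟨fun _ ha => ex_mem hn (M := A.toAddSubgroup) h.1 hA (C_mem_serR ha), fun z hz => by
    rw [exp_act]
    exact ex_mem hn h.2 hN (C_mem_ser hz)⟩

end Mv

open Mv

/-- **The cocycle lemma.**  `O x`, `N x` are local rings and local modules, `W₀₁, W₁₂, W₀₂` the
double overlaps and `W` the triple overlap. -/
theorem cocycle [Algebra ℚ L] {ι : Type*} (O : ι → Subring L) (N : ι → AddSubgroup L)
    (hO : ∀ x, ∀ c : ℚ, ∀ a ∈ O x, c • a ∈ O x) (hN : ∀ x, ∀ c : ℚ, ∀ z ∈ N x, c • z ∈ N x)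
    (W₀₁ W₁₂ W₀₂ W : Set ι) (h₀₁ : W ⊆ W₀₁) (h₁₂ : W ⊆ W₁₂) (h₀₂ : W ⊆ W₀₂)
    (H2 : ∀ (D : Derivation k L L) (r : L), (∀ x ∈ W, Op (O x) (N x) D r) →
      ∃ (D₀₁ D₁₂ D₀₂ : Derivation k L L) (r₀₁ r₁₂ r₀₂ : L),
        (∀ x ∈ W₀₁, Op (O x) (N x) D₀₁ r₀₁) ∧ (∀ x ∈ W₁₂, Op (O x) (N x) D₁₂ r₁₂) ∧
        (∀ x ∈ W₀₂, Op (O x) (N x) D₀₂ r₀₂) ∧ D = D₀₂ - D₀₁ - D₁₂ ∧ r = r₀₂ - r₀₁ - r₁₂)
    {κ₀₁ κ₁₂ : Derivation k L L} {r₀₁ r₁₂ : L} (k₀₁ : ∀ x ∈ W₀₁, Op (O x) (N x) κ₀₁ r₀₁)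
    (k₁₂ : ∀ x ∈ W₁₂, Op (O x) (N x) κ₁₂ r₁₂)
    (k₀₂ : ∀ x ∈ W₀₂, Op (O x) (N x) (κ₁₂ + κ₀₁) (r₁₂ + r₀₁)) :
    ∃ m₀₁ m₁₂ : Mv k L, (∀ x ∈ W₀₁, m₀₁.Pres (O x) (N x)) ∧ (∀ x ∈ W₁₂, m₁₂.Pres (O x) (N x)) ∧
      (∀ x ∈ W₀₂, (m₁₂.comp m₀₁).Pres (O x) (N x)) ∧ Df 1 m₀₁ one κ₀₁ r₀₁ ∧
      Df 1 m₁₂ one κ₁₂ r₁₂ := by
  let Inv : ℕ → Mv k L × Mv k L × Mv k L → Prop := fun n s =>
    (∀ x ∈ W₀₁, s.1.Pres (O x) (N x)) ∧ (∀ x ∈ W₁₂, s.2.1.Pres (O x) (N x)) ∧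
      (∀ x ∈ W₀₂, s.2.2.Pres (O x) (N x)) ∧ Cg (n + 2) (s.2.1.comp s.1) s.2.2
  have one_comp : ∀ m : Mv k L, m.comp one = m := fun m => ext' (fun _ => rfl) (by simp)
  have step : ∀ n s, Inv n s → ∃ s', Inv (n + 1) s' ∧ Cg (n + 2) s'.1 s.1 ∧
      Cg (n + 2) s'.2.1 s.2.1 ∧ Cg (n + 2) s'.2.2 s.2.2 := by
    rintro n ⟨a, b, c⟩ ⟨p1, p2, p3, p4⟩
    obtain ⟨D, r, hD⟩ := p4.exists_df
    obtain ⟨D₁, D₂, D₃, r₁, r₂, r₃, q1, q2, q3, e1, e2⟩ := H2 D r fun x hx =>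
      hD.op ((p2 x (h₁₂ hx)).comp (p1 x (h₀₁ hx))) (p3 x (h₀₂ hx))
    have hn : 1 ≤ n + 2 := by omega
    have d : ∀ (m : Mv k L) (D : Derivation k L L) (r : L),
        Df (n + 2) (m.comp (exp hn D r)) m D r := by
      intro m D r
      have := (df_zero.2 (Cg.refl _ m)).comp (df_exp hn D r)
      rwa [one_comp, zero_add, zero_add] at this
    refine ⟨(a.comp (exp hn D₁ r₁), b.comp (exp hn D₂ r₂), c.comp (exp hn D₃ r₃)),
      ⟨fun x hx => (p1 x hx).comp (pres_exp hn (q1 x hx) (hO x) (hN x)),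
        fun x hx => (p2 x hx).comp (pres_exp hn (q2 x hx) (hO x) (hN x)),
        fun x hx => (p3 x hx).comp (pres_exp hn (q3 x hx) (hO x) (hN x)), ?_⟩,
      (d a _ _).cg, (d b _ _).cg, (d c _ _).cg⟩
    have := (((d b D₂ r₂).comp (d a D₁ r₁)).trans hD).trans (d c D₃ r₃).symm
    rw [e1, e2, show D₂ + D₁ + (D₃ - D₁ - D₂) + -D₃ = 0 by abel,
      show r₂ + r₁ + (r₃ - r₁ - r₂) + -r₃ = 0 by ring] at this
    exact df_zero.1 this
  choose! f hf using step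
  have h1 : (1 : ℕ) ≤ 1 := le_rfl
  let s₀ : Mv k L × Mv k L × Mv k L :=
    (exp h1 κ₀₁ r₀₁, exp h1 κ₁₂ r₁₂, exp h1 (κ₁₂ + κ₀₁) (r₁₂ + r₀₁))
  have hs₀ : Inv 0 s₀ := by
    refine ⟨fun x hx => pres_exp h1 (k₀₁ x hx) (hO x) (hN x),
      fun x hx => pres_exp h1 (k₁₂ x hx) (hO x) (hN x),
      fun x hx => pres_exp h1 (k₀₂ x hx) (hO x) (hN x), ?_⟩
    have h2 := (df_exp h1 κ₁₂ r₁₂).comp (df_exp h1 κ₀₁ r₀₁)
    rw [one_comp] at h2
    have := h2.trans (df_exp h1 (κ₁₂ + κ₀₁) (r₁₂ + r₀₁)).symm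
    rw [add_neg_cancel, add_neg_cancel] at this
    exact df_zero.1 this
  let s : ℕ → Mv k L × Mv k L × Mv k L := fun n => Nat.rec s₀ (fun n t => f n t) n
  have hs : ∀ n, Inv n (s n) := by
    intro n
    induction n with
    | zero => exact hs₀
    | succ n ih => exact (hf n _ ih).1
  have c1 : ∀ n, Cg (n + 2) (s (n + 1)).1 (s n).1 := fun n => (hf n _ (hs n)).2.1
  have c2 : ∀ n, Cg (n + 2) (s (n + 1)).2.1 (s n).2.1 := fun n => (hf n _ (hs n)).2.2.1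
  have c3 : ∀ n, Cg (n + 2) (s (n + 1)).2.2 (s n).2.2 := fun n => (hf n _ (hs n)).2.2.2
  have sharp : ∀ (t : ℕ → Mv k L) (h : ∀ n, Cg (n + 2) (t (n + 1)) (t n)),
      ∃ m : Mv k L, (∀ n, Cg n m (t n)) ∧ Cg 2 m (t 0) := by
    intro t h
    have h' : ∀ n, Cg n (t (n + 1)) (t n) := fun n => (h n).mono (by omega)
    exact ⟨limit t h', cg_limit t h',
      ((cg_limit t h' 2).trans ((h 1).mono (by omega))).trans (h 0)⟩
  obtain ⟨a, a1, a2⟩ := sharp (fun n => (s n).1) c1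
  obtain ⟨b, b1, b2⟩ := sharp (fun n => (s n).2.1) c2
  obtain ⟨c, c1', -⟩ := sharp (fun n => (s n).2.2) c3
  have hc : b.comp a = c := eq_of_cg fun n =>
    (((b1 n).comp (a1 n)).trans ((hs n).2.2.2.mono (by omega))).trans (c1' n).symm
  refine ⟨a, b, fun x hx => pres_of_cg fun n => ⟨_, (hs n).1 x hx, a1 n⟩,
    fun x hx => pres_of_cg fun n => ⟨_, (hs n).2.1 x hx, b1 n⟩,
    fun x hx => hc ▸ pres_of_cg fun n => ⟨_, (hs n).2.2.1 x hx, c1' n⟩, ?_, ?_⟩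
  · have := (df_zero.2 a2).trans (df_exp h1 κ₀₁ r₀₁)
    rwa [zero_add, zero_add] at this
  · have := (df_zero.2 b2).trans (df_exp h1 κ₁₂ r₁₂)
    rwa [zero_add, zero_add] at this

end Crest.Agent.X262.Mv99
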