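import Mathlib

/-!
# Row 262, G4 / MV (helper99), part 1: series with coefficients in a subgroup, `X`-linear maps

* `ser M`   : the power series all of whose coefficients lie in the additive subgroup `M`;
* `serR A`  : the same for a subring;
* `XL Ψ`    : additive maps of `L⟦X⟧` which commute with multiplication by `X`;
* `XL.mem`, `XL.dvd_sub`, `XL.inj`, `XL.surj` : such a map is controlled by its values on constants;
* `ex n T`  : the exponential of `X ^ n T`, with the twisted Leibniz rule `ex_mul`.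
-/

set_option autoImplicit false

open PowerSeries Finset

noncomputable section

namespace Crest.Agent.X262.Mv99

variable {L : Type*} [CommRing L]

/-- series with coefficients in `M` -/
def ser (M : AddSubgroup L) : AddSubgroup L⟦X⟧ where
  carrier := {f | ∀ i, coeff i f ∈ M}
  zero_mem' i := by simp
  add_mem' hf hg i := by rw [map_add]; exact M.add_mem (hf i) (hg i)
  neg_mem' hf i := by rw [map_neg]; exact M.neg_mem (hf i)

theorem mem_ser {M : AddSubgroup L} {f : L⟦X⟧} : f ∈ ser M ↔ ∀ i, coeff i f ∈ M := Iff.rfl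

theorem ser_mono {M M' : AddSubgroup L} (h : M ≤ M') : ser M ≤ ser M' := fun _ hf i => h (hf i)

theorem C_mem_ser {M : AddSubgroup L} {a : L} (ha : a ∈ M) : (C a : L⟦X⟧) ∈ ser M := by
  intro i
  rw [coeff_C]
  split_ifs
  · exact ha
  · exact M.zero_mem

theorem X_pow_mul_mem_ser {M : AddSubgroup L} {f : L⟦X⟧} (hf : f ∈ ser M) (n : ℕ) :
    X ^ n * f ∈ ser M := by
  intro i
  rw [coeff_X_pow_mul']
  split_ifs
  · exact hf _
  · exact M.zero_mem

theorem mem_ser_of_X_pow_mul {M : AddSubgroup L} {f : L⟦X⟧} {n : ℕ} (hf : X ^ n * f ∈ ser M) :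
    f ∈ ser M := by
  intro i
  have := hf (i + n)
  rwa [coeff_X_pow_mul] at this

theorem mul_mem_ser {M M' M'' : AddSubgroup L} (h : ∀ a ∈ M, ∀ b ∈ M', a * b ∈ M'') {f g : L⟦X⟧}
    (hf : f ∈ ser M) (hg : g ∈ ser M') : f * g ∈ ser M'' := by
  intro i
  rw [coeff_mul]
  exact M''.sum_mem fun p _ => h _ (hf _) _ (hg _)

/-- `ser M` is closed -/
theorem mem_ser_of_approx {M : AddSubgroup L} {f : L⟦X⟧}
    (h : ∀ n, ∃ g ∈ ser M, X ^ n ∣ f - g) : f ∈ ser M := by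
  intro i
  obtain ⟨g, hg, hd⟩ := h (i + 1)
  have := X_pow_dvd_iff.1 hd i (Nat.lt_succ_self i)
  rw [map_sub, sub_eq_zero] at this
  rw [this]
  exact hg i

/-- series with coefficients in a subring -/
def serR (A : Subring L) : Subring L⟦X⟧ where
  carrier := ser A.toAddSubgroup
  zero_mem' := (ser _).zero_mem
  one_mem' := by
    have := C_mem_ser (M := A.toAddSubgroup) A.one_mem
    rwa [map_one] at this
  add_mem' := (ser _).add_mem
  neg_mem' := (ser _).neg_mem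
  mul_mem' := mul_mem_ser fun _ ha _ hb => A.mul_mem ha hb

theorem mem_serR {A : Subring L} {f : L⟦X⟧} : f ∈ serR A ↔ ∀ i, coeff i f ∈ A := Iff.rfl

theorem mem_serR' {A : Subring L} {f : L⟦X⟧} : f ∈ serR A ↔ f ∈ ser A.toAddSubgroup := Iff.rfl

theorem C_mem_serR {A : Subring L} {a : L} (ha : a ∈ A) : (C a : L⟦X⟧) ∈ serR A :=
  C_mem_ser (M := A.toAddSubgroup) ha

theorem X_mem_serR (A : Subring L) : (X : L⟦X⟧) ∈ serR A := by
  have := X_pow_mul_mem_ser (M := A.toAddSubgroup) (serR A).one_mem 1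
  rwa [pow_one, mul_one] at this

theorem eq_of_dvd {f g : L⟦X⟧} (h : ∀ n, X ^ n ∣ f - g) : f = g := by
  ext i
  have := X_pow_dvd_iff.1 (h (i + 1)) i (Nat.lt_succ_self i)
  rwa [map_sub, sub_eq_zero] at this

/-- the shift -/
def sh (f : L⟦X⟧) : L⟦X⟧ := PowerSeries.mk fun i => coeff (i + 1) f

theorem eq_C_add (f : L⟦X⟧) : f = C (constantCoeff f) + X * sh f := by
  rw [add_comm]
  exact eq_X_mul_shift_add_const f

theorem sh_mem {M : AddSubgroup L} {f : L⟦X⟧} (hf : f ∈ ser M) : sh f ∈ ser M := by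
  intro i
  rw [sh, coeff_mk]
  exact hf _

theorem const_mem {M : AddSubgroup L} {f : L⟦X⟧} (hf : f ∈ ser M) : constantCoeff f ∈ M := by
  rw [← coeff_zero_eq_constantCoeff_apply]
  exact hf 0

theorem dvd_succ_of {n : ℕ} {f : L⟦X⟧} (h : X ^ n ∣ f) :
    X ^ (n + 1) ∣ f - X ^ n * C (coeff n f) := by
  obtain ⟨g, rfl⟩ := h
  have h1 : coeff n (X ^ n * g) = constantCoeff g := by
    have := coeff_X_pow_mul g n 0
    rwa [zero_add, coeff_zero_eq_constantCoeff_apply] at this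
  rw [h1]
  refine ⟨sh g, ?_⟩
  conv_lhs => rw [eq_C_add g]
  simp only [map_add, map_mul, constantCoeff_C, constantCoeff_X, zero_mul, add_zero]
  ring

theorem coeff_of_dvd_succ {n : ℕ} {f : L⟦X⟧} {a : L} (h : X ^ (n + 1) ∣ f - X ^ n * C a) :
    coeff n f = a := by
  have := X_pow_dvd_iff.1 h n (Nat.lt_succ_self n)
  rw [map_sub, sub_eq_zero] at this
  rw [this]
  have h2 := coeff_X_pow_mul (C a : L⟦X⟧) n 0
  rwa [zero_add, coeff_zero_C] at h2

theorem X_dvd_sub_C (f : L⟦X⟧) : X ∣ f - C (constantCoeff f) := by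
  rw [X_dvd_iff]
  simp

/-- additive maps which commute with `X` -/
def XL (Ψ : L⟦X⟧ →+ L⟦X⟧) : Prop := ∀ f, Ψ (X * f) = X * Ψ f

namespace XL

variable {Ψ Ψ' : L⟦X⟧ →+ L⟦X⟧}

theorem pow (h : XL Ψ) (n : ℕ) (f : L⟦X⟧) : Ψ (X ^ n * f) = X ^ n * Ψ f := by
  induction n with
  | zero => simp
  | succ n ih => rw [pow_succ', mul_assoc, h, ih, mul_assoc]

theorem dvd (h : XL Ψ) {n : ℕ} {f : L⟦X⟧} (hf : X ^ n ∣ f) : X ^ n ∣ Ψ f := by
  obtain ⟨g, rfl⟩ := hf
  rw [h.pow]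
  exact dvd_mul_right _ _

theorem sub (h : XL Ψ) (h' : XL Ψ') : XL (Ψ - Ψ') := fun f => by
  simp only [AddMonoidHom.sub_apply, h f, h' f, mul_sub]

theorem id : XL (AddMonoidHom.id L⟦X⟧) := fun _ => rfl

theorem comp (h : XL Ψ) (h' : XL Ψ') : XL (Ψ.comp Ψ') := fun f => by
  simp only [AddMonoidHom.comp_apply, h' f, h _]

/-- a closed, `X`-stable target -/
theorem mem_of (h : XL Ψ) {M : AddSubgroup L} {T : AddSubgroup L⟦X⟧}
    (hX : ∀ g ∈ T, X * g ∈ T) (hT : ∀ g, (∀ n, ∃ g' ∈ T, X ^ n ∣ g - g') → g ∈ T)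
    (hC : ∀ a ∈ M, Ψ (C a) ∈ T) {f : L⟦X⟧} (hf : f ∈ ser M) : Ψ f ∈ T := by
  refine hT _ fun n => ?_
  induction n generalizing f with
  | zero => exact ⟨0, T.zero_mem, by simp⟩
  | succ n ih =>
    obtain ⟨g, hg, hd⟩ := ih (sh_mem hf)
    refine ⟨Ψ (C (constantCoeff f)) + X * g, T.add_mem (hC _ (const_mem hf)) (hX _ hg), ?_⟩
    conv_rhs => rw [eq_C_add f]
    simp only [map_add, map_mul, constantCoeff_C, constantCoeff_X, zero_mul, add_zero, h (sh f)]
    obtain ⟨w, hw⟩ := hd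
    exact ⟨w, by linear_combination X * hw⟩

theorem mem (h : XL Ψ) {M M' : AddSubgroup L} (hC : ∀ a ∈ M, Ψ (C a) ∈ ser M') {f : L⟦X⟧}
    (hf : f ∈ ser M) : Ψ f ∈ ser M' :=
  h.mem_of (fun g hg => by simpa using X_pow_mul_mem_ser hg 1) (fun _ => mem_ser_of_approx) hC hf

theorem dvd_all (h : XL Ψ) {n : ℕ} (hC : ∀ a, X ^ n ∣ Ψ (C a)) (f : L⟦X⟧) : X ^ n ∣ Ψ f := by
  have key : ∀ m, ∀ f : L⟦X⟧, ∃ g, X ^ n ∣ g ∧ X ^ m ∣ Ψ f - g := by
    intro m
    induction m with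
    | zero => exact fun f => ⟨0, dvd_zero _, by simp⟩
    | succ m ih =>
      intro f
      obtain ⟨g, hg, w, hw⟩ := ih (sh f)
      refine ⟨Ψ (C (constantCoeff f)) + X * g, dvd_add (hC _) (hg.mul_left _), w, ?_⟩
      conv_lhs => rw [eq_C_add f]
      simp only [map_add, map_mul, constantCoeff_C, constantCoeff_X, zero_mul, add_zero, h (sh f)]
      linear_combination X * hw
  obtain ⟨g, hg, hd⟩ := key n f
  simpa using dvd_add hd hg

theorem dvd_sub (h : XL Ψ) (h' : XL Ψ') {n : ℕ} (hC : ∀ a, X ^ n ∣ Ψ (C a) - Ψ' (C a))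
    (f : L⟦X⟧) : X ^ n ∣ Ψ f - Ψ' f :=
  (h.sub h').dvd_all hC f

theorem ext (h : XL Ψ) (h' : XL Ψ') (hC : ∀ a, Ψ (C a) = Ψ' (C a)) (f : L⟦X⟧) : Ψ f = Ψ' f :=
  eq_of_dvd fun n => h.dvd_sub h' (fun a => by rw [hC, sub_self]; exact dvd_zero _) f

theorem X_dvd (h : XL Ψ) (h0 : ∀ a, constantCoeff (Ψ (C a)) = a) (f : L⟦X⟧) : X ∣ Ψ f - f := by
  have := h.dvd_sub XL.id (n := 1) (fun a => by
    rw [pow_one, X_dvd_iff]
    simp [h0]) f
  rwa [pow_one] at this

theorem const (h : XL Ψ) (h0 : ∀ a, constantCoeff (Ψ (C a)) = a) (f : L⟦X⟧) :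
    constantCoeff (Ψ f) = constantCoeff f := by
  have := X_dvd_iff.1 (h.X_dvd h0 f)
  rwa [map_sub, sub_eq_zero] at this

theorem dvd_succ (h : XL Ψ) (h0 : ∀ a, constantCoeff (Ψ (C a)) = a) (n : ℕ) (f : L⟦X⟧) :
    X ^ (n + 1) ∣ Ψ (X ^ n * f) - X ^ n * f := by
  obtain ⟨w, hw⟩ := h.X_dvd h0 f
  exact ⟨w, by rw [h.pow]; linear_combination X ^ n * hw⟩

/-- the order is preserved -/
theorem dvd_of_dvd (h : XL Ψ) (h0 : ∀ a, constantCoeff (Ψ (C a)) = a) {n : ℕ} {f : L⟦X⟧}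
    (hf : X ^ n ∣ Ψ f) : X ^ n ∣ f := by
  induction n with
  | zero => simp
  | succ n ih =>
    obtain ⟨g, rfl⟩ := ih ((pow_dvd_pow _ n.le_succ).trans hf)
    have := _root_.dvd_sub hf (h.dvd_succ h0 n g)
    simpa using this

theorem inj (h : XL Ψ) (h0 : ∀ a, constantCoeff (Ψ (C a)) = a) : Function.Injective Ψ := by
  rw [injective_iff_map_eq_zero]
  intro f hf
  refine eq_of_dvd fun n => ?_
  rw [sub_zero]
  exact h.dvd_of_dvd h0 (by rw [hf]; exact dvd_zero _)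

end XL

/-- limit of a Cauchy sequence -/
def lim (s : ℕ → L⟦X⟧) : L⟦X⟧ := PowerSeries.mk fun i => coeff i (s (i + 1))

theorem dvd_of_succ {s : ℕ → L⟦X⟧} (h : ∀ n, X ^ n ∣ s (n + 1) - s n) {n m : ℕ} (hnm : n ≤ m) :
    X ^ n ∣ s m - s n := by
  induction m, hnm using Nat.le_induction with
  | base => simp
  | succ m hm ih =>
    have := dvd_add ((pow_dvd_pow _ hm).trans (h m)) ih
    simpa using this

theorem dvd_lim {s : ℕ → L⟦X⟧} (h : ∀ n, X ^ n ∣ s (n + 1) - s n) (n : ℕ) :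
    X ^ n ∣ lim s - s n := by
  rw [X_pow_dvd_iff]
  intro i hi
  have := X_pow_dvd_iff.1 (dvd_of_succ h (Nat.succ_le_of_lt hi)) i (Nat.lt_succ_self i)
  rw [map_sub] at this ⊢
  rw [lim, coeff_mk]
  linear_combination -this

theorem XL.surj {Ψ : L⟦X⟧ →+ L⟦X⟧} (h : XL Ψ) (h0 : ∀ a, constantCoeff (Ψ (C a)) = a)
    {M : AddSubgroup L} (hC : ∀ a ∈ M, Ψ (C a) ∈ ser M) {g : L⟦X⟧} (hg : g ∈ ser M) :
    ∃ f ∈ ser M, Ψ f = g := by
  let s : ℕ → L⟦X⟧ := fun n => Nat.rec 0 (fun _ f => f + (g - Ψ f)) n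
  have hs : ∀ n, s (n + 1) = s n + (g - Ψ (s n)) := fun n => rfl
  have h1 : ∀ n, s n ∈ ser M := by
    intro n
    induction n with
    | zero => exact (ser M).zero_mem
    | succ n ih => exact (ser M).add_mem ih ((ser M).sub_mem hg (h.mem hC ih))
  have h2 : ∀ n, X ^ n ∣ g - Ψ (s n) := by
    intro n
    induction n with
    | zero => simp
    | succ n ih =>
      obtain ⟨w, hw⟩ := ih
      rw [hs, map_add, hw]
      have := h.dvd_succ h0 n w
      have e : g - (Ψ (s n) + Ψ (X ^ n * w)) = -(Ψ (X ^ n * w) - X ^ n * w) := by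
        linear_combination hw
      rw [e]
      exact this.neg_right
  have h3 : ∀ n, X ^ n ∣ s (n + 1) - s n := fun n => by simpa [hs] using h2 n
  refine ⟨lim s, mem_ser_of_approx fun n => ⟨s n, h1 n, dvd_lim h3 n⟩, eq_of_dvd fun n => ?_⟩
  have := _root_.dvd_sub (h.dvd (dvd_lim h3 n)) (h2 n)
  simpa using this

theorem XL.bij {Ψ : L⟦X⟧ →+ L⟦X⟧} (h : XL Ψ) (h0 : ∀ a, constantCoeff (Ψ (C a)) = a) :
    Function.Bijective Ψ :=
  ⟨h.inj h0, fun g => by
    obtain ⟨f, -, hf⟩ := h.surj h0 (M := ⊤) (fun _ _ _ => trivial) (g := g) (fun _ => trivial)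
    exact ⟨f, hf⟩⟩

/-- the preimage of `ser M` -/
theorem XL.mem_iff {Ψ : L⟦X⟧ →+ L⟦X⟧} (h : XL Ψ) (h0 : ∀ a, constantCoeff (Ψ (C a)) = a)
    {M : AddSubgroup L} (hC : ∀ a ∈ M, Ψ (C a) ∈ ser M) {f : L⟦X⟧} :
    Ψ f ∈ ser M ↔ f ∈ ser M := by
  refine ⟨fun hf => ?_, h.mem hC⟩
  obtain ⟨f', h1, h2⟩ := h.surj h0 hC hf
  rwa [← h.inj h0 h2]

/-! ### exponentials -/

section Exp

/-- `X ^ n T`, coefficientwise -/
def dl (n : ℕ) (T : L →+ L) : L⟦X⟧ →+ L⟦X⟧ where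
  toFun f := X ^ n * PowerSeries.mk fun i => T (coeff i f)
  map_zero' := by
    have : (PowerSeries.mk fun i => T (coeff i (0 : L⟦X⟧))) = 0 := by ext; simp
    rw [this, mul_zero]
  map_add' f g := by
    rw [← mul_add]
    congr 1
    ext
    simp

theorem dl_apply (n : ℕ) (T : L →+ L) (f : L⟦X⟧) :
    dl n T f = X ^ n * PowerSeries.mk fun i => T (coeff i f) := rfl

theorem dl_xl (n : ℕ) (T : L →+ L) : XL (dl n T) := by
  intro f
  rw [dl_apply, dl_apply, mul_left_comm]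
  congr 1
  ext i
  rcases i with _ | i
  · simp
  · simp [coeff_succ_X_mul]

theorem dl_C (n : ℕ) (T : L →+ L) (a : L) : dl n T (C a) = X ^ n * C (T a) := by
  rw [dl_apply]
  congr 1
  ext i
  rw [coeff_mk, coeff_C, coeff_C]
  split_ifs <;> simp

theorem dl_mem (n : ℕ) {T : L →+ L} {M : AddSubgroup L} (h : ∀ a ∈ M, T a ∈ M) {f : L⟦X⟧}
    (hf : f ∈ ser M) : dl n T f ∈ ser M :=
  X_pow_mul_mem_ser (fun i => by rw [coeff_mk]; exact h _ (hf i)) n

theorem dl_mul (n : ℕ) {T₁ T₂ T₃ : L →+ L} (h : ∀ a b, T₃ (a * b) = T₁ a * b + a * T₂ b)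
    (f g : L⟦X⟧) : dl n T₃ (f * g) = dl n T₁ f * g + f * dl n T₂ g := by
  simp only [dl_apply]
  rw [mul_assoc, mul_left_comm f, ← mul_add]
  congr 1
  ext i
  simp only [coeff_mk, map_add, coeff_mul, map_sum, h, sum_add_distrib]

theorem dl_iter_dvd {n : ℕ} (T : L →+ L) (k : ℕ) (f : L⟦X⟧) :
    X ^ (n * k) ∣ (dl n T)^[k] f := by
  induction k with
  | zero => simp
  | succ k ih =>
    obtain ⟨w, hw⟩ := ih
    rw [Function.iterate_succ_apply', hw, (dl_xl n T).pow, dl_apply, ← mul_assoc, ← pow_add,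
      Nat.mul_succ]
    exact dvd_mul_right _ _

theorem dl_iter_dvd' {n : ℕ} (hn : 1 ≤ n) (T : L →+ L) (k : ℕ) (f : L⟦X⟧) :
    X ^ k ∣ (dl n T)^[k] f :=
  (pow_dvd_pow _ (Nat.le_mul_of_pos_left k hn)).trans (dl_iter_dvd T k f)

theorem iter_leibniz {R : Type*} [CommRing R] {d₁ d₂ d₃ : R →+ R}
    (h : ∀ a b, d₃ (a * b) = d₁ a * b + a * d₂ b) (k : ℕ) (f g : R) :
    d₃^[k] (f * g) = ∑ p ∈ antidiagonal k, k.choose p.1 • (d₁^[p.1] f * d₂^[p.2] g) := by
  induction k with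
  | zero => simp
  | succ k ih =>
    rw [Function.iterate_succ_apply', ih, map_sum,
      Finset.sum_antidiagonal_choose_succ_nsmul (fun i j => d₁^[i] f * d₂^[j] g) k,
      ← sum_add_distrib]
    refine sum_congr rfl fun p hp => ?_
    rw [map_nsmul, h, Function.iterate_succ_apply', Function.iterate_succ_apply', smul_add,
      add_comm, ← Nat.choose_symm_of_eq_add (mem_antidiagonal.1 hp).symm]

variable [Algebra ℚ L]

/-- partial sums of the exponential -/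
def exS (n : ℕ) (T : L →+ L) (N : ℕ) (f : L⟦X⟧) : L⟦X⟧ :=
  ∑ k ∈ range N, ((k.factorial : ℚ)⁻¹) • (dl n T)^[k] f

theorem exS_succ (n : ℕ) (T : L →+ L) (N : ℕ) (f : L⟦X⟧) :
    exS n T (N + 1) f = exS n T N f + ((N.factorial : ℚ)⁻¹) • (dl n T)^[N] f := sum_range_succ _ _

theorem dvd_smul {g f : L⟦X⟧} (c : ℚ) (h : g ∣ f) : g ∣ c • f := by
  rw [Algebra.smul_def]
  exact h.mul_left _

theorem exS_cauchy {n : ℕ} (hn : 1 ≤ n) (T : L →+ L) (f : L⟦X⟧) (N : ℕ) :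
    X ^ N ∣ exS n T (N + 1) f - exS n T N f := by
  rw [exS_succ, add_sub_cancel_left]
  exact dvd_smul _ (dl_iter_dvd' hn T N f)

theorem exS_add (n : ℕ) (T : L →+ L) (N : ℕ) (f g : L⟦X⟧) :
    exS n T N (f + g) = exS n T N f + exS n T N g := by
  simp only [exS, iterate_map_add, smul_add, sum_add_distrib]

theorem exS_X (n : ℕ) (T : L →+ L) (N : ℕ) (f : L⟦X⟧) :
    exS n T N (X * f) = X * exS n T N f := by
  have : ∀ k, (dl n T)^[k] (X * f) = X * (dl n T)^[k] f := by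
    intro k
    induction k with
    | zero => rfl
    | succ k ih => rw [Function.iterate_succ_apply', Function.iterate_succ_apply', ih, dl_xl]
  simp only [exS, this, mul_sum, mul_smul_comm]

/-- the exponential of `X ^ n T` -/
def ex {n : ℕ} (hn : 1 ≤ n) (T : L →+ L) : L⟦X⟧ →+ L⟦X⟧ :=
  AddMonoidHom.mk' (fun f => lim fun N => exS n T N f) fun f g => eq_of_dvd fun N => by
    have h1 := dvd_lim (s := fun N => exS n T N (f + g)) (exS_cauchy hn T (f + g)) N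
    have h2 := dvd_lim (s := fun N => exS n T N f) (exS_cauchy hn T f) N
    have h3 := dvd_lim (s := fun N => exS n T N g) (exS_cauchy hn T g) N
    rw [exS_add] at h1
    have := dvd_sub (dvd_sub h1 h2) h3
    convert this using 1
    ring

theorem ex_dvd {n : ℕ} (hn : 1 ≤ n) (T : L →+ L) (f : L⟦X⟧) (N : ℕ) :
    X ^ N ∣ ex hn T f - exS n T N f :=
  dvd_lim (s := fun N => exS n T N f) (exS_cauchy hn T f) N

theorem ex_xl {n : ℕ} (hn : 1 ≤ n) (T : L →+ L) : XL (ex hn T) := fun f =>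
  eq_of_dvd fun N => by
    have h1 := ex_dvd hn T (X * f) N
    have h2 := (ex_dvd hn T f N).mul_left X
    rw [exS_X] at h1
    convert dvd_sub h1 h2 using 1
    ring

theorem ex_first {n : ℕ} (hn : 1 ≤ n) (T : L →+ L) (f : L⟦X⟧) :
    X ^ (n + 1) ∣ ex hn T f - f - dl n T f := by
  have h1 := ex_dvd hn T f (n + 2)
  have h2 : ∀ N, X ^ (n + 1) ∣ exS n T (N + 2) f - f - dl n T f := by
    intro N
    induction N with
    | zero => simp [exS, sum_range_succ]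
    | succ N ih =>
      have h3 : X ^ (n + 1) ∣ (dl n T)^[N + 2] f :=
        (pow_dvd_pow _ (by nlinarith)).trans (dl_iter_dvd T (N + 2) f)
      rw [show N + 1 + 2 = (N + 2) + 1 from rfl, exS_succ]
      convert dvd_add ih (dvd_smul ((N + 2).factorial : ℚ)⁻¹ h3) using 1
      ring
  convert dvd_add ((pow_dvd_pow _ (by omega)).trans h1) (h2 n) using 1
  ring

theorem ex_C {n : ℕ} (hn : 1 ≤ n) (T : L →+ L) (a : L) :
    X ^ (n + 1) ∣ ex hn T (C a) - C a - X ^ n * C (T a) := by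
  have := ex_first hn T (C a)
  rwa [dl_C] at this

theorem ex_const {n : ℕ} (hn : 1 ≤ n) (T : L →+ L) (a : L) :
    constantCoeff (ex hn T (C a)) = a := by
  have h1 : X ∣ ex hn T (C a) - C a - X ^ n * C (T a) :=
    (dvd_pow_self _ n.succ_ne_zero).trans (ex_C hn T a)
  have h2 : (X : L⟦X⟧) ∣ X ^ n * C (T a) := (dvd_pow_self _ (by omega)).mul_right _
  have := X_dvd_iff.1 (dvd_add h1 h2)
  simpa [sub_eq_zero] using this

theorem ex_of_zero {n : ℕ} (hn : 1 ≤ n) {T : L →+ L} {a : L} (ha : T a = 0) :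
    ex hn T (C a) = C a := by
  refine eq_of_dvd fun N => ?_
  have h1 := ex_dvd hn T (C a) (N + 1)
  have h2 : exS n T (N + 1) (C a) = C a := by
    rw [exS, sum_range_succ']
    simp [Function.iterate_succ_apply, dl_C, ha]
  rw [h2] at h1
  exact (pow_dvd_pow _ N.le_succ).trans h1

theorem ex_mem {n : ℕ} (hn : 1 ≤ n) {T : L →+ L} {M : AddSubgroup L} (h : ∀ a ∈ M, T a ∈ M)
    (hQ : ∀ c : ℚ, ∀ a ∈ M, c • a ∈ M) {f : L⟦X⟧} (hf : f ∈ ser M) : ex hn T f ∈ ser M := by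
  refine mem_ser_of_approx fun N => ⟨_, ?_, ex_dvd hn T f N⟩
  refine (ser M).sum_mem fun k _ i => ?_
  rw [coeff_smul]
  refine hQ _ _ ?_
  have : (dl n T)^[k] f ∈ ser M := by
    induction k with
    | zero => exact hf
    | succ k ih => rw [Function.iterate_succ_apply']; exact dl_mem n h (ih (by simp_all; omega))
  exact this i

theorem ex_mul {n : ℕ} (hn : 1 ≤ n) {T₁ T₂ T₃ : L →+ L}
    (h : ∀ a b, T₃ (a * b) = T₁ a * b + a * T₂ b) (f g : L⟦X⟧) :
    ex hn T₃ (f * g) = ex hn T₁ f * ex hn T₂ g := by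
  refine eq_of_dvd fun N => ?_
  have h1 := ex_dvd hn T₃ (f * g) N
  have h2 := (ex_dvd hn T₁ f N).mul_right (ex hn T₂ g)
  have h3 := (ex_dvd hn T₂ g N).mul_left (exS n T₁ N f)
  let t : ℕ × ℕ → L⟦X⟧ := fun p =>
    ((p.1.factorial : ℚ)⁻¹ • (dl n T₁)^[p.1] f) * ((p.2.factorial : ℚ)⁻¹ • (dl n T₂)^[p.2] g)
  have h4 : exS n T₃ N (f * g) = ∑ k ∈ range N, ∑ p ∈ antidiagonal k, t p := by
    refine sum_congr rfl fun k _ => ?_
    rw [iter_leibniz (dl_mul n h), smul_sum]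
    refine sum_congr rfl fun p hp => ?_
    have e : (k.factorial : ℚ)⁻¹ * (k.choose p.1 : ℚ) =
        (p.1.factorial : ℚ)⁻¹ * (p.2.factorial : ℚ)⁻¹ := by
      have h5 := Nat.add_choose_mul_factorial_mul_factorial p.2 p.1
      rw [add_comm, mem_antidiagonal.1 hp] at h5
      have h6 : (k.factorial : ℚ) = k.choose p.1 * p.2.factorial * p.1.factorial := by
        exact_mod_cast h5.symm
      have h7 : (k.choose p.1 : ℚ) ≠ 0 := by
        intro h8
        rw [h8, zero_mul, zero_mul] at h6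
        exact Nat.factorial_ne_zero k (by exact_mod_cast h6)
      rw [h6]
      field_simp
    simp only [t]
    rw [smul_mul_smul_comm, ← Nat.cast_smul_eq_nsmul ℚ, smul_smul, e]
  have h5 : exS n T₁ N f * exS n T₂ N g = ∑ p ∈ range N ×ˢ range N, t p := by
    rw [exS, exS, sum_mul_sum, sum_product]
  have h6 : ∑ k ∈ range N, ∑ p ∈ antidiagonal k, t p =
      ∑ p ∈ (range N ×ˢ range N).filter (fun p => p.1 + p.2 < N), t p := by
    rw [sum_sigma']
    refine sum_bij (fun x _ => x.2) ?_ ?_ ?_ ?_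
    · rintro ⟨k, p⟩ hx
      simp only [mem_sigma, mem_range, HasAntidiagonal.mem_antidiagonal, mem_filter, mem_product] at hx ⊢
      omega
    · rintro ⟨k, p⟩ hx ⟨k', p'⟩ hx' e
      simp only [mem_sigma, mem_range, HasAntidiagonal.mem_antidiagonal] at hx hx' e
      subst e
      obtain rfl : k = k' := by omega
      rfl
    · intro p hp
      simp only [mem_range, mem_filter, mem_product] at hp
      exact ⟨⟨p.1 + p.2, p⟩, by simp [hp.2], rfl⟩
    · intro _ _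
      rfl
  have h7 : X ^ N ∣ ∑ p ∈ (range N ×ˢ range N).filter (fun p => ¬ p.1 + p.2 < N), t p := by
    refine dvd_sum fun p hp => ?_
    have h8 : N ≤ p.1 + p.2 := not_lt.1 (mem_filter.1 hp).2
    refine (pow_dvd_pow _ h8).trans ?_
    rw [pow_add]
    exact mul_dvd_mul (dvd_smul _ (dl_iter_dvd' hn _ _ _)) (dvd_smul _ (dl_iter_dvd' hn _ _ _))
  have h8 := sum_filter_add_sum_filter_not (range N ×ˢ range N) (fun p => p.1 + p.2 < N) t
  rw [← h5, ← h6, ← h4] at h8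
  convert dvd_sub (dvd_sub (dvd_sub h1 h2) h3) h7 using 1
  linear_combination h8

end Exp

end Crest.Agent.X262.Mv99
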